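import Vale.Agent.P284.H402.A.Spec
import Vale.Agent.P284.H639.V5
import Vale.Agent.P284.H730.VP

/-!
# P284 (A''), helper402: smoothness and invariance of the densities
-/

open scoped Manifold ContDiff Topology Pointwise ComplexConjugate ComplexOrder Matrix
open Filter Set Metric MeasureTheory

noncomputable section

namespace Vale.Agent.P284.H402.A

open Vale.Agent.P272.K Vale.Agent.P272.K.C2 Vale.Agent.P284.H248 Vale.Agent.P284.H894
  Vale.Agent.P284.H894.G Vale.Agent.P284.H894.V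

/-! ### Smoothness -/

section loc
variable {n q : ℕ} {w : Cm n → Matrix (Fin n) (Fin n) ℂ} {θ : Cm n → Matrix (Fin n) (Fin q) ℂ}
  {f h : Cm n → ℝ} {z : Cm n}

theorem mc_smul {ι κ : Type*} {m : WithTop ℕ∞} {c : Cm n → ℂ} {M : Cm n → Matrix ι κ ℂ}
    (hc : ContDiffAt ℝ m c z) (hM : MC m M z) : MC m (fun y => c y • M y) z :=
  fun i j => hc.mul (hM i j)

theorem mc_const {ι κ : Type*} {m : WithTop ℕ∞} (M : Matrix ι κ ℂ) : MC m (fun _ : Cm n => M) z :=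
  fun _ _ => contDiffAt_const

theorem mc_TT (hw : MC ∞ w z) (h0 : (w z).det ≠ 0) (hθ : MC ∞ θ z) (δ : ℝ) :
    MC ∞ (fun y => TT (w y) (θ y) δ) z :=
  MC.add (mc_const _) ((hθ.conjTranspose.mul (hw.inv h0)).mul hθ)

theorem smooth_DD (hw : MC ∞ w z) (h0 : (w z).det ≠ 0) (hθ : MC ∞ θ z) (δ : ℝ) :
    ContDiffAt ℝ ∞ (fun y => DD (w y) (θ y) δ) z :=
  H639.V.re_smooth (mc_TT hw h0 hθ δ).det

theorem mc_AA (hw : MC ∞ w z) (h0 : (w z).det ≠ 0) (hθ : MC ∞ θ z) (δ : ℝ) :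
    MC ∞ (fun y => AA (w y) (θ y) δ) z :=
  MC.sub (mc_smul (mc_TT hw h0 hθ δ).det (hw.inv h0))
    (((((hw.inv h0).mul hθ).mul (mc_TT hw h0 hθ δ).adjugate).mul hθ.conjTranspose).mul (hw.inv h0))

theorem smooth_pd (hf : ContDiffAt ℝ ∞ f z) (j : Fin n) : ContDiffAt ℝ ∞ (fun y => pd f y j) z :=
  contDiffAt_dz j (contDiffAt_ofReal hf) (by norm_num)

theorem smooth_qf {A : Cm n → Matrix (Fin n) (Fin n) ℂ} {α β : Cm n → Fin n → ℂ} (hA : MC ∞ A z)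
    (hα : ∀ j, ContDiffAt ℝ ∞ (fun y => α y j) z) (hβ : ∀ j, ContDiffAt ℝ ∞ (fun y => β y j) z) :
    ContDiffAt ℝ ∞ (fun y => qf (A y) (α y) (β y)) z := by
  refine H639.V.re_smooth (F := fun y => star (β y) ⬝ᵥ A y *ᵥ α y) ?_
  simp only [dotProduct, Matrix.mulVec]
  refine ContDiffAt.sum fun k _ => ContDiffAt.mul (contDiffAt_conj (hβ k))
    (ContDiffAt.sum fun j _ => (hA k j).mul (hα j))

theorem smooth_tr1 {A : Cm n → Matrix (Fin n) (Fin n) ℂ} (hA : MC ∞ A z)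
    (hf : ContDiffAt ℝ ∞ f z) : ContDiffAt ℝ ∞ (fun y => tr1 (A y) (cHess f y)) z :=
  H639.V.re_smooth (hA.mul (H639.V.mc_cHess hf)).trace

theorem smooth_tr2 {A B : Cm n → Matrix (Fin n) (Fin n) ℂ} (hA : MC ∞ A z) (hB : MC ∞ B z)
    (hf : ContDiffAt ℝ ∞ f z) : ContDiffAt ℝ ∞ (fun y => tr2 (A y) (B y) (cHess f y)) z :=
  H639.V.re_smooth ((hA.mul (H639.V.mc_cHess hf)).mul (hB.mul (H639.V.mc_cHess hf))).trace

theorem mc_updateCol {M : Cm n → Matrix (Fin n) (Fin q) ℂ} {α : Cm n → Fin n → ℂ} (hM : MC ∞ M z)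
    (hα : ∀ j, ContDiffAt ℝ ∞ (fun y => α y j) z) (k : Fin q) :
    MC ∞ (fun y => (M y).updateCol k (α y)) z := by
  intro i j
  by_cases h : j = k
  · subst h
    simpa only [Matrix.updateCol_self] using hα i
  · simpa only [Matrix.updateCol_ne h] using hM i j

theorem smooth_ee {α : Cm n → Fin n → ℂ} (hw : MC ∞ w z) (h0 : (w z).det ≠ 0) (hθ : MC ∞ θ z)
    (hα : ∀ j, ContDiffAt ℝ ∞ (fun y => α y j) z) :
    ContDiffAt ℝ ∞ (fun y => ee (w y) (θ y) (α y)) z := by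
  unfold ee
  refine ContDiffAt.sum fun k _ => H639.V.re_smooth
    (F := fun y => (((θ y).updateCol k (α y))ᴴ * (w y)⁻¹ * (θ y).updateCol k (α y)).det) ?_
  exact (((mc_updateCol hθ hα k).conjTranspose.mul (hw.inv h0)).mul (mc_updateCol hθ hα k)).det

end loc

/-! ### Invariance (pointwise) -/

section inv
variable {n q : ℕ} {w w' J : Matrix (Fin n) (Fin n) ℂ} {θ θ' : Matrix (Fin n) (Fin q) ℂ}

theorem ct_map (J : Matrix (Fin n) (Fin n) ℂ) : Jᵀᴴ = J.map (starRingEnd ℂ) := rfl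

theorem TT_inv (hJ : J.map (starRingEnd ℂ) * w⁻¹ * Jᵀ = w'⁻¹) (hθ : θ = Jᵀ * θ') (δ : ℝ) :
    TT w θ δ = TT w' θ' δ := by
  unfold TT
  congr 1
  rw [hθ, Matrix.conjTranspose_mul, ct_map, ← hJ]
  simp only [Matrix.mul_assoc]

theorem AA_inv (hJ : J.map (starRingEnd ℂ) * w⁻¹ * Jᵀ = w'⁻¹) (hθ : θ = Jᵀ * θ') (δ : ℝ) :
    J.map (starRingEnd ℂ) * AA w θ δ * Jᵀ = AA w' θ' δ := by
  unfold AA
  rw [TT_inv hJ hθ, Matrix.mul_sub, Matrix.sub_mul, Matrix.mul_smul, Matrix.smul_mul, hJ]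
  congr 1
  rw [hθ, Matrix.conjTranspose_mul, ct_map, ← hJ]
  simp only [Matrix.mul_assoc]

theorem DD_inv (hJ : J.map (starRingEnd ℂ) * w⁻¹ * Jᵀ = w'⁻¹) (hθ : θ = Jᵀ * θ') (δ : ℝ) :
    DD w θ δ = DD w' θ' δ := by rw [DD, DD, TT_inv hJ hθ]

theorem qf_inv {A A' : Matrix (Fin n) (Fin n) ℂ} (hA : J.map (starRingEnd ℂ) * A * Jᵀ = A')
    (a b : Fin n → ℂ) : qf A (Jᵀ *ᵥ a) (Jᵀ *ᵥ b) = qf A' a b := by
  have := H730.V.S_pull (M := A) (J := J) a b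
  rw [H730.V.S_eq, H730.V.S_eq, hA] at this
  rw [qf, qf, this]

theorem tr1_inv {A A' : Matrix (Fin n) (Fin n) ℂ} (hA : J.map (starRingEnd ℂ) * A * Jᵀ = A')
    (x : Matrix (Fin n) (Fin n) ℂ) : tr1 A (Jᵀ * x * J.map (starRingEnd ℂ)) = tr1 A' x := by
  rw [tr1, tr1, H730.V.trace_pull, hA]

theorem tr2_inv {A A' B B' : Matrix (Fin n) (Fin n) ℂ} (hA : J.map (starRingEnd ℂ) * A * Jᵀ = A')
    (hB : J.map (starRingEnd ℂ) * B * Jᵀ = B') (x : Matrix (Fin n) (Fin n) ℂ) :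
    tr2 A B (Jᵀ * x * J.map (starRingEnd ℂ)) = tr2 A' B' x := by
  rw [tr2, tr2, ← hA, ← hB]
  have h1 : A * (Jᵀ * x * J.map (starRingEnd ℂ)) * (B * (Jᵀ * x * J.map (starRingEnd ℂ))) =
      (A * (Jᵀ * x * J.map (starRingEnd ℂ)) * (B * (Jᵀ * x))) * J.map (starRingEnd ℂ) := by
    simp only [Matrix.mul_assoc]
  rw [h1, Matrix.trace_mul_comm]
  simp only [Matrix.mul_assoc]

theorem updateCol_mul (J : Matrix (Fin n) (Fin n) ℂ) (θ : Matrix (Fin n) (Fin q) ℂ) (k : Fin q)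
    (a : Fin n → ℂ) : (J * θ).updateCol k (J *ᵥ a) = J * θ.updateCol k a := by
  ext i j
  by_cases h : j = k
  · subst h
    rw [Matrix.updateCol_self, Matrix.mul_apply]
    simp only [Matrix.updateCol_self]
    rfl
  · rw [Matrix.updateCol_ne h, Matrix.mul_apply, Matrix.mul_apply]
    simp only [Matrix.updateCol_ne h]

theorem ee_inv (hJ : J.map (starRingEnd ℂ) * w⁻¹ * Jᵀ = w'⁻¹) (hθ : θ = Jᵀ * θ') (a : Fin n → ℂ) :
    ee w θ (Jᵀ *ᵥ a) = ee w' θ' a := by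
  unfold ee
  refine Finset.sum_congr rfl fun k _ => ?_
  rw [hθ, updateCol_mul, Matrix.conjTranspose_mul, ct_map, ← hJ]
  simp only [Matrix.mul_assoc]

theorem QQ_inv (hJ : J.map (starRingEnd ℂ) * w⁻¹ * Jᵀ = w'⁻¹) (hθ : θ = Jᵀ * θ') (δ : ℝ)
    (x : Matrix (Fin n) (Fin n) ℂ) :
    QQ w θ δ (Jᵀ * x * J.map (starRingEnd ℂ)) = QQ w' θ' δ x := by
  rw [QQ, QQ, tr1_inv (AA_inv hJ hθ δ), tr2_inv (AA_inv hJ hθ δ) (AA_inv hJ hθ δ), DD_inv hJ hθ]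

end inv

/-! ### On the covering -/

section glob
variable {n q : ℕ} {Γ : Type} [Group Γ] {C : Coc n Γ} {P : PU C} {K : KM C} {θ : HF C q}
  {f h : Γ → C.I → Cm n → ℝ}

theorem th_mc (θ : HF C q) {a : C.I} {z : Cm n} (hz : z ∈ C.Ω a) : MC ∞ (θ.th a) z := by
  intro i j
  have h1 := Vale.Agent.P268.analyticAt_of_differentiableOn (H639.V.isOpen_Ω C a) (θ.holo a i j) hz
  exact (h1.contDiffAt (n := ∞)).restrict_scalars ℝ

theorem w_mc (K : KM C) {a : C.I} {z : Cm n} (hz : z ∈ C.Ω a) : MC ∞ (K.w a) z :=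
  H639.V.KU_mc (K.ku a) hz

theorem w_det (K : KM C) {a : C.I} {z : Cm n} (hz : z ∈ C.Ω a) : (K.w a z).det ≠ 0 :=
  H639.V.KU_det (K.ku a) hz

theorem w_pos (K : KM C) {a : C.I} {z : Cm n} (hz : z ∈ C.Ω a) : (K.w a z).PosDef :=
  (K.ku a).pos z hz

theorem inv_K (K : KM C) {a b : C.I} {z : Cm n} (hz : z ∈ C.O a b) :
    (jac C a b z).map (starRingEnd ℂ) * (K.w a z)⁻¹ * (jac C a b z)ᵀ = (K.w b (C.T a b z))⁻¹ :=
  H730.V.inv_law (w_det K (H639.V.O_sub_Ω C hz)) (K.change a b z hz)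

theorem T_hol (C : Coc n Γ) {a b : C.I} {z : Cm n} (hz : z ∈ C.O a b) :
    ∀ᶠ y in 𝓝 z, DifferentiableAt ℂ (C.T a b) y := by
  filter_upwards [(C.O_open a b).mem_nhds hz] with y hy
  exact (C.T_holo a b).differentiableAt ((C.O_open a b).mem_nhds hy)

theorem pd_law (hf : IsTst C f) (γ : Γ) {a b : C.I} {z : Cm n} (hz : z ∈ C.O a b) :
    pd (f γ a) z = (jac C a b z)ᵀ *ᵥ pd (f (γ * C.κ a b z) b) (C.T a b z) :=
  H730.V.dd_comp (T_hol C hz).self_of_nhds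
    ((hf.smooth _ b _ (H639.V.T_mem_Ω C hz)).differentiableAt (by norm_num))
    (H639.V.compat_ev hf γ hz)

theorem cHess_law (hf : IsTst C f) (γ : Γ) {a b : C.I} {z : Cm n} (hz : z ∈ C.O a b) :
    cHess (f γ a) z = (jac C a b z)ᵀ * cHess (f (γ * C.κ a b z) b) (C.T a b z) *
      (jac C a b z).map (starRingEnd ℂ) :=
  H730.V.cHess_comp (T_hol C hz) (hf.smooth _ b _ (H639.V.T_mem_Ω C hz)) (H639.V.compat_ev hf γ hz)

theorem pd_congr {n : ℕ} {f g : Cm n → ℝ} {z : Cm n} (e : f =ᶠ[𝓝 z] g) : pd f z = pd g z := by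
  ext j
  exact dz_congr j (H639.V.ofReal_ev e)

theorem pd_zero {n : ℕ} {f : Cm n → ℝ} {z : Cm n} (e : f =ᶠ[𝓝 z] fun _ => 0) : pd f z = 0 := by
  rw [pd_congr e]
  ext j
  simp only [pd, Pi.zero_apply]
  exact dz_const j _

theorem cHess_zero' {n : ℕ} {f : Cm n → ℝ} {z : Cm n} (e : f =ᶠ[𝓝 z] fun _ => 0) :
    cHess f z = 0 := by
  rw [C2.cHess_congr e, C2.cHess_const]

/-- a density made of `w`, `θ`, `∂f`, `∂∂̄f` gives a family -/
theorem fam_mk (hf : IsTst C f) {G : Γ → C.I → Cm n → ℝ} (hc : ∀ γ a, ContinuousOn (G γ a) (C.Ω a))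
    (hi : ∀ γ a b, ∀ z ∈ C.O a b, G γ a z = G (γ * C.κ a b z) b (C.T a b z))
    (h0 : ∀ γ a, ∀ z ∈ C.V a, f γ a =ᶠ[𝓝 z] (fun _ => 0) → G γ a z = 0) : Fam C G :=
  ⟨hc, hi, H639.V.fin_of hf h0⟩

theorem dD_cont (K : KM C) (θ : HF C q) (δ : ℝ) (a : C.I) : ContinuousOn (dD K θ δ a) (C.Ω a) :=
  fun _ hz => (smooth_DD (w_mc K hz) (w_det K hz) (th_mc θ hz) δ).continuousAt.continuousWithinAt

theorem dD_inv (K : KM C) (θ : HF C q) (δ : ℝ) {a b : C.I} {z : Cm n} (hz : z ∈ C.O a b) :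
    dD K θ δ a z = dD K θ δ b (C.T a b z) := DD_inv (inv_K K hz) (θ.change a b z hz) δ

/-- multiplication of a family by a continuous invariant function of the base -/
theorem fam_base {G : Γ → C.I → Cm n → ℝ} (hG : Fam C G) {m : C.I → Cm n → ℝ}
    (hm : ∀ a, ContinuousOn (m a) (C.Ω a)) (hi : ∀ a b, ∀ z ∈ C.O a b, m a z = m b (C.T a b z)) :
    Fam C (fun γ a z => m a z * G γ a z) where
  cont γ a := (hm a).mul (hG.cont γ a)
  compat γ a b z hz := by rw [hG.compat γ a b z hz, hi a b z hz]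
  fin := by
    refine hG.fin.subset ?_
    rintro γ ⟨a, z, hz, hne⟩
    exact ⟨a, z, hz, fun h0 => hne (by rw [h0, mul_zero])⟩

theorem fam_ip (hf : IsTst C f) (hh' : IsTst C h) (K : KM C) (θ : HF C q) (δ : ℝ) :
    Fam C (fun γ a z => dD K θ δ a z * (f γ a z * h γ a z)) :=
  fam_base (H639.V.isTst_fam (H639.V.isTst_mul hf hh')) (dD_cont K θ δ) fun _ _ _ hz =>
    dD_inv K θ δ hz

theorem smooth_vA (hf : IsTst C f) (hh' : IsTst C h) (K : KM C) (θ : HF C q) (δ : ℝ) (γ : Γ)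
    {a : C.I} {z : Cm n} (hz : z ∈ C.Ω a) : ContDiffAt ℝ ∞ (vA K θ δ f h γ a) z :=
  smooth_qf (mc_AA (w_mc K hz) (w_det K hz) (th_mc θ hz) δ) (smooth_pd (hf.smooth γ a z hz))
    (smooth_pd (hh'.smooth γ a z hz))

theorem fam_vA (hf : IsTst C f) (hh' : IsTst C h) (K : KM C) (θ : HF C q) (δ : ℝ) :
    Fam C (vA K θ δ f h) := by
  refine fam_mk hf (fun γ a z hz => (smooth_vA hf hh' K θ δ γ hz).continuousAt.continuousWithinAt)
    (fun γ a b z hz => ?_) fun γ a z _ e => ?_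
  · simp only [vA]
    rw [pd_law hf γ hz, pd_law hh' γ hz]
    exact qf_inv (AA_inv (inv_K K hz) (θ.change a b z hz) δ) _ _
  · simp only [vA, pd_zero e, qf, Matrix.mulVec_zero, dotProduct_zero, Complex.zero_re]

theorem smooth_lA (hf : IsTst C f) (K : KM C) (θ : HF C q) (δ : ℝ) (γ : Γ)
    {a : C.I} {z : Cm n} (hz : z ∈ C.Ω a) : ContDiffAt ℝ ∞ (lA K θ δ f γ a) z :=
  smooth_tr1 (mc_AA (w_mc K hz) (w_det K hz) (th_mc θ hz) δ) (hf.smooth γ a z hz)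

theorem lA_inv (hf : IsTst C f) (K : KM C) (θ : HF C q) (δ : ℝ) (γ : Γ) {a b : C.I} {z : Cm n}
    (hz : z ∈ C.O a b) : lA K θ δ f γ a z = lA K θ δ f (γ * C.κ a b z) b (C.T a b z) := by
  simp only [lA]
  rw [cHess_law hf γ hz]
  exact tr1_inv (AA_inv (inv_K K hz) (θ.change a b z hz) δ) _

theorem lA_zero {K : KM C} {θ : HF C q} {δ : ℝ} {γ : Γ} {a : C.I} {z : Cm n}
    (e : f γ a =ᶠ[𝓝 z] fun _ => 0) : lA K θ δ f γ a z = 0 := by
  simp [lA, tr1, cHess_zero' e]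

theorem fam_lA (hf : IsTst C f) (K : KM C) (θ : HF C q) (δ : ℝ) : Fam C (lA K θ δ f) :=
  fam_mk hf (fun γ _ _ hz => (smooth_lA hf K θ δ γ hz).continuousAt.continuousWithinAt)
    (fun γ _ _ _ hz => lA_inv hf K θ δ γ hz) fun _ _ _ _ e => lA_zero e

theorem fam_oA (hf : IsTst C f) (K : KM C) (θ : HF C q) : Fam C (oA K θ f) := by
  refine fam_mk hf (fun γ a z hz => (smooth_tr2 (mc_AA (w_mc K hz) (w_det K hz) (th_mc θ hz) 0)
    ((w_mc K hz).inv (w_det K hz)) (hf.smooth γ a z hz)).continuousAt.continuousWithinAt)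
    (fun γ a b z hz => ?_) fun γ a z _ e => ?_
  · simp only [oA]
    rw [cHess_law hf γ hz]
    exact tr2_inv (AA_inv (inv_K K hz) (θ.change a b z hz) 0) (inv_K K hz) _
  · simp [oA, tr2, cHess_zero' e]

theorem fam_eA (hA : A2Stmt) (hf : IsTst C f) (K : KM C) (θ : HF C q) : Fam C (eA K θ f) := by
  refine fam_mk hf (fun γ a z hz => (smooth_ee (w_mc K hz) (w_det K hz) (th_mc θ hz)
    (smooth_pd (hf.smooth γ a z hz))).continuousAt.continuousWithinAt)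
    (fun γ a b z hz => ?_) fun γ a z hz e => ?_
  · simp only [eA]
    rw [pd_law hf γ hz]
    exact ee_inv (inv_K K hz) (θ.change a b z hz) _
  · simp only [eA, pd_zero e]
    have h1 := hA.low (K.w a z) (θ.th a z) 1 (w_pos K (H639.V.V_sub_Ω C a hz)) zero_le_one 0
    simp only [qf, Matrix.mulVec_zero, dotProduct_zero, Complex.zero_re, one_mul, zero_add] at h1
    exact le_antisymm h1.2 h1.1

end glob

end Vale.Agent.P284.H402.A
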