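import Vale.Agent.P284.H402.A.Spec
import Vale.Agent.P284.H275.Tr

/-!
# P284 (A''), helper402: final form of the conclusion, with central translations and the strong density
-/

open scoped Manifold ContDiff Topology Pointwise ComplexConjugate ComplexOrder Matrix
open Filter Set Metric MeasureTheory

noncomputable section

namespace Vale.Agent.P284.H402.A

open Vale.Agent.P272.K Vale.Agent.P284.H248 Vale.Agent.P284.H894 Vale.Agent.P284.H894.G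
  Vale.Agent.P284.H894.V

/-- the matrix `w⁻¹ θ T⁻² θᴴ w⁻¹` -/
def BB {n q : ℕ} (w : Matrix (Fin n) (Fin n) ℂ) (θ : Matrix (Fin n) (Fin q) ℂ) :
    Matrix (Fin n) (Fin n) ℂ :=
  w⁻¹ * θ * (TT w θ 0)⁻¹ * (TT w θ 0)⁻¹ * θᴴ * w⁻¹

/-- **A2'**: the stronger main inequality (helper279). -/
def A2MainStmt : Prop :=
  ∀ (q : ℕ) (Λ : ℝ), 0 < q → ∃ c : ℝ, 0 < c ∧ ∀ {n : ℕ} (w : Matrix (Fin n) (Fin n) ℂ)
    (θ : Matrix (Fin n) (Fin q) ℂ) (δ : ℝ) (x : Matrix (Fin n) (Fin n) ℂ),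
    w.PosDef → 0 < δ → δ ≤ 1 → x.IsHermitian →
    ((Λ : ℂ) • (1 : Matrix (Fin q) (Fin q) ℂ) - θᴴ * w⁻¹ * θ).PosSemidef →
    c * δ * (tr2 (AA w θ 0) w⁻¹ x + tr2 (AA w θ 0) (BB w θ) x) +
      tr2 (AA w θ 0) (AA w θ 0) x / DD w θ 0 ≤ DD w θ δ * tr2 (WW w θ δ)⁻¹ (WW w θ δ)⁻¹ x

section
variable {n q : ℕ} {Γ : Type} [Group Γ]

/-- density of `D |T⁻¹ θᴴ w⁻¹ ∂∂̄f P_v^{1/2}|²` -/
def bA {C : Coc n Γ} (K : KM C) (θ : HF C q) (f : Γ → C.I → Cm n → ℝ) (γ : Γ) (a : C.I)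
    (z : Cm n) : ℝ :=
  tr2 (AA (K.w a z) (θ.th a z) 0) (BB (K.w a z) (θ.th a z)) (cHess (f γ a) z)

/-- `T_c f - f` -/
def trd {C : Coc n Γ} (c : Γ) (f : Γ → C.I → Cm n → ℝ) (γ : Γ) (a : C.I) (z : Cm n) : ℝ :=
  f (c⁻¹ * γ) a z - f γ a z

/-- **Conclusion of (A'')** for the central elements `c i`: for every `ε` a test function `f`, `s ≥ 1`
and a continuous invariant density `m ≥ oA + bA` with
`∫ D f² + s² ∫ D p² + ε⁻¹ (E^{(q-1)}(f) + s ∫ m + Σ_i s V_0(T_i f - f)) ≤ c₀ s V_0(f)`, `V_0(f) > 0`. -/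
def APPc {C : Coc n Γ} (P : PU C) (K : KM C) (θ : HF C q) {ι : Type} [Fintype ι] (c : ι → Γ) : Prop :=
  ∃ c₀ : ℝ, 0 < c₀ ∧ ∀ ε : ℝ, 0 < ε → ∃ (f : Γ → C.I → Cm n → ℝ) (s : ℝ)
    (m : Γ → C.I → Cm n → ℝ), IsTst C f ∧ 1 ≤ s ∧ 0 < en P K θ 0 f f ∧ Fam C m ∧
    (∀ γ a, ∀ z ∈ C.Ω a, 0 ≤ oA K θ f γ a z ∧ 0 ≤ bA K θ f γ a z ∧
      oA K θ f γ a z + bA K θ f γ a z ≤ m γ a z) ∧
    ip P K θ 0 f f + s ^ 2 * Int P K (pA K θ f) +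
      ε⁻¹ * (Int P K (eA K θ f) + s * Int P K m +
        ∑ i, s * en P K θ 0 (trd (c i) f) (trd (c i) f)) ≤ c₀ * (s * en P K θ 0 f f)

end

/-- **(A'')** for `q ≥ 1`, with finitely many central elements. -/
def APPcStmt : Prop :=
  ∀ (n q : ℕ), 0 < q → ∀ (Γ : Type) [Group Γ] (C : Coc n Γ) (P : PU C) (K : KM C) (θ : HF C q),
    Folner Γ → Esc P K θ → ∀ (ι : Type) [Fintype ι] (c : ι → Γ), (∀ i g, c i * g = g * c i) →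
    APPc P K θ c

end Vale.Agent.P284.H402.A
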