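import Vale.Agent.P284.H894.V.Spec

/-!
# P284, module (A''): almost relatively pluriharmonic functions (helper402). DEFINITIONS AND STATEMENTS

`X` compact Kähler, `E → X` Galois with group `Γ`, `q` closed holomorphic 1-forms on `X`: `θ` is the
`n × q` matrix of their coefficients (`θ j i` = coefficient of `dz_j` in the form number `i`).
`T = θᴴ w⁻¹ θ` Gram matrix, `D = det T = |Ω_A|²`. For `δ > 0` the metric `w + δ⁻¹ θ θᴴ` has volume density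
`δ^{-q} det w · det (δ + T)` and inverse `(det (δ + T))⁻¹ AA w θ δ`. Everything is a polynomial in `δ`.

* `vA` : density `|Ω_A ∧ ∂f|²`;  `oA` : density `|Ω_A ∧ ∂∂̄f|²`;  `lA0` : `⟨Ω_A ∧ ∂∂̄f, Ω_A ∧ w⟩ = D p`;
* `e1` : density `Σ_k |(product of the forms except the k-th) ∧ ∂f|²`.
All densities are relative to the volume of `w`.
-/

open scoped Manifold ContDiff Topology Pointwise ComplexConjugate ComplexOrder Matrix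
open Filter Set Metric MeasureTheory

noncomputable section

namespace Vale.Agent.P284.H402.A

open Vale.Agent.P272.K Vale.Agent.P284.H248 Vale.Agent.P284.H894 Vale.Agent.P284.H894.G
  Vale.Agent.P284.H894.V

/-! ### Pointwise definitions -/

section
variable {n q : ℕ}

/-- the Gram matrix of the forms, plus `δ` -/
def TT (w : Matrix (Fin n) (Fin n) ℂ) (θ : Matrix (Fin n) (Fin q) ℂ) (δ : ℝ) :
    Matrix (Fin q) (Fin q) ℂ :=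
  (δ : ℂ) • (1 : Matrix (Fin q) (Fin q) ℂ) + θᴴ * w⁻¹ * θ

/-- `det (δ + T)`; for `δ = 0`: `|Ω_A|²` -/
def DD (w : Matrix (Fin n) (Fin n) ℂ) (θ : Matrix (Fin n) (Fin q) ℂ) (δ : ℝ) : ℝ := (TT w θ δ).det.re

/-- `det (δ + T)` times the inverse of `w + δ⁻¹ θ θᴴ`; for `δ = 0`: `D` times the vertical part of `w⁻¹` -/
def AA (w : Matrix (Fin n) (Fin n) ℂ) (θ : Matrix (Fin n) (Fin q) ℂ) (δ : ℝ) :
    Matrix (Fin n) (Fin n) ℂ :=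
  (TT w θ δ).det • w⁻¹ - w⁻¹ * θ * (TT w θ δ).adjugate * θᴴ * w⁻¹

/-- the metric `w + δ⁻¹ θ θᴴ` -/
def WW (w : Matrix (Fin n) (Fin n) ℂ) (θ : Matrix (Fin n) (Fin q) ℂ) (δ : ℝ) :
    Matrix (Fin n) (Fin n) ℂ := w + ((δ⁻¹ : ℝ) : ℂ) • (θ * θᴴ)

/-- `αᴴ A β` (real part) -/
def qf (A : Matrix (Fin n) (Fin n) ℂ) (α β : Fin n → ℂ) : ℝ := (star β ⬝ᵥ A *ᵥ α).re

/-- `tr (A x)` (real part) -/
def tr1 (A x : Matrix (Fin n) (Fin n) ℂ) : ℝ := (A * x).trace.re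

/-- `tr (A x B x)` (real part) -/
def tr2 (A B x : Matrix (Fin n) (Fin n) ℂ) : ℝ := (A * x * (B * x)).trace.re

/-- `Σ_k |θ_1 ∧ … α … ∧ θ_q|²` (`α` at the place `k`) -/
def ee (w : Matrix (Fin n) (Fin n) ℂ) (θ : Matrix (Fin n) (Fin q) ℂ) (α : Fin n → ℂ) : ℝ :=
  ∑ k, ((θ.updateCol k α)ᴴ * w⁻¹ * θ.updateCol k α).det.re

/-- the Kähler density `D_δ (ℓ² - |x|²)`, `0` where `D_δ = 0` -/
def QQ (w : Matrix (Fin n) (Fin n) ℂ) (θ : Matrix (Fin n) (Fin q) ℂ) (δ : ℝ)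
    (x : Matrix (Fin n) (Fin n) ℂ) : ℝ :=
  (tr1 (AA w θ δ) x ^ 2 - tr2 (AA w θ δ) (AA w θ δ) x) / DD w θ δ

/-- the vector `(∂_j f)_j` -/
def pd (f : Cm n → ℝ) (z : Cm n) : Fin n → ℂ := fun j => dz j (fun y => (f y : ℂ)) z

end

/-! ### A2: pointwise linear algebra -/

/-- **A2**. `w` positive definite, `T ≤ Λ`. (`c` depends only on `q` and `Λ`.) -/
structure A2Stmt : Prop where
  /-- determinant of the metric `w + δ⁻¹ θ θᴴ` -/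
  det_WW : ∀ {n q : ℕ} (w : Matrix (Fin n) (Fin n) ℂ) (θ : Matrix (Fin n) (Fin q) ℂ) (δ : ℝ),
    w.PosDef → 0 < δ → (WW w θ δ).PosDef ∧ (WW w θ δ).det.re = (δ ^ q)⁻¹ * DD w θ δ * w.det.re
  /-- its inverse -/
  inv_WW : ∀ {n q : ℕ} (w : Matrix (Fin n) (Fin n) ℂ) (θ : Matrix (Fin n) (Fin q) ℂ) (δ : ℝ),
    w.PosDef → 0 < δ → AA w θ δ = (DD w θ δ : ℂ) • (WW w θ δ)⁻¹
  DD_nonneg : ∀ {n q : ℕ} (w : Matrix (Fin n) (Fin n) ℂ) (θ : Matrix (Fin n) (Fin q) ℂ) (δ : ℝ),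
    w.PosDef → 0 ≤ δ → 0 ≤ DD w θ 0 ∧ DD w θ 0 ≤ DD w θ δ ∧ (0 < δ → 0 < DD w θ δ)
  DD_pos : ∀ {n q : ℕ} (w : Matrix (Fin n) (Fin n) ℂ) (θ : Matrix (Fin n) (Fin q) ℂ),
    w.PosDef → Function.Injective θ.mulVec → 0 < DD w θ 0
  /-- upper bounds -/
  up : ∀ (q : ℕ) (Λ : ℝ), ∃ c : ℝ, 0 < c ∧ ∀ {n : ℕ} (w : Matrix (Fin n) (Fin n) ℂ)
    (θ : Matrix (Fin n) (Fin q) ℂ) (δ : ℝ), w.PosDef → 0 ≤ δ → δ ≤ 1 →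
    ((Λ : ℂ) • (1 : Matrix (Fin q) (Fin q) ℂ) - θᴴ * w⁻¹ * θ).PosSemidef →
    DD w θ δ ≤ c ∧ DD w θ δ ≤ DD w θ 0 + c * δ ∧
    ∀ α, qf (AA w θ δ) α α ≤ c * qf w⁻¹ α α ∧
      qf (AA w θ δ) α α ≤ qf (AA w θ 0) α α + c * δ * qf w⁻¹ α α
  herm : ∀ {n q : ℕ} (w : Matrix (Fin n) (Fin n) ℂ) (θ : Matrix (Fin n) (Fin q) ℂ) (δ : ℝ),
    w.PosDef → 0 ≤ δ → (AA w θ δ).PosSemidef
  /-- lower bound: `V_δ ≥ V_0 + δ E^{(q-1)}` -/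
  low : ∀ {n q : ℕ} (w : Matrix (Fin n) (Fin n) ℂ) (θ : Matrix (Fin n) (Fin q) ℂ) (δ : ℝ),
    w.PosDef → 0 ≤ δ → ∀ α, 0 ≤ ee w θ α ∧ qf (AA w θ 0) α α + δ * ee w θ α ≤ qf (AA w θ δ) α α
  /-- the form `AA w θ 0` is `|Ω_A ∧ α|²` (bordered Gram determinant) -/
  bord : ∀ {n q : ℕ} (w : Matrix (Fin n) (Fin n) ℂ) (θ : Matrix (Fin n) (Fin q) ℂ), w.PosDef →
    ∀ α β, (star β ⬝ᵥ AA w θ 0 *ᵥ α) =
      ((Matrix.of fun i => Fin.snoc (θ i) (β i) : Matrix (Fin n) (Fin (q + 1)) ℂ)ᴴ * w⁻¹ *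
        (Matrix.of fun i => Fin.snoc (θ i) (α i) : Matrix (Fin n) (Fin (q + 1)) ℂ)).det
  zero : ∀ {n q : ℕ} (w : Matrix (Fin n) (Fin n) ℂ) (θ : Matrix (Fin n) (Fin q) ℂ), w.PosDef →
    DD w θ 0 = 0 → AA w θ 0 = 0
  /-- traces, for `0 ≤ δ` -/
  tr_nonneg : ∀ {n q : ℕ} (w : Matrix (Fin n) (Fin n) ℂ) (θ : Matrix (Fin n) (Fin q) ℂ) (δ : ℝ)
    (x : Matrix (Fin n) (Fin n) ℂ), w.PosDef → 0 ≤ δ → x.IsHermitian →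
    0 ≤ tr2 (AA w θ δ) w⁻¹ x ∧ 0 ≤ tr2 (AA w θ δ) (AA w θ δ) x ∧
    tr2 (AA w θ δ) (AA w θ δ) x ≤ DD w θ δ ^ 2 * tr2 w⁻¹ w⁻¹ x ∧
    tr2 (AA w θ δ) w⁻¹ x ≤ DD w θ δ * tr2 w⁻¹ w⁻¹ x ∧
    tr1 (AA w θ δ) x ^ 2 ≤ n * tr2 (AA w θ δ) (AA w θ δ) x
  /-- comparison of `δ = 0` and `δ > 0` -/
  tr_zero : ∀ {n q : ℕ} (w : Matrix (Fin n) (Fin n) ℂ) (θ : Matrix (Fin n) (Fin q) ℂ) (δ : ℝ)
    (x : Matrix (Fin n) (Fin n) ℂ), w.PosDef → 0 < δ → x.IsHermitian →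
    tr1 (AA w θ 0) x ^ 2 ≤ n * (DD w θ 0 * DD w θ δ * tr2 (WW w θ δ)⁻¹ (WW w θ δ)⁻¹ x)
  /-- the main inequality: `q ≥ 1` -/
  main : ∀ (q : ℕ) (Λ : ℝ), 0 < q → ∃ c : ℝ, 0 < c ∧ ∀ {n : ℕ} (w : Matrix (Fin n) (Fin n) ℂ)
    (θ : Matrix (Fin n) (Fin q) ℂ) (δ : ℝ) (x : Matrix (Fin n) (Fin n) ℂ),
    w.PosDef → 0 < δ → δ ≤ 1 → x.IsHermitian →
    ((Λ : ℂ) • (1 : Matrix (Fin q) (Fin q) ℂ) - θᴴ * w⁻¹ * θ).PosSemidef →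
    c * δ * tr2 (AA w θ 0) w⁻¹ x + tr2 (AA w θ 0) (AA w θ 0) x / DD w θ 0 ≤
      DD w θ δ * tr2 (WW w θ δ)⁻¹ (WW w θ δ)⁻¹ x

/-! ### A1: the abstract lemma (approximate geometric steps) -/

/-- **A1**. `V` = test functions. `K` = number of steps, `f₀` = Følner function. -/
def A1Stmt : Prop :=
  ∃ c₀ : ℝ, 0 < c₀ ∧ ∀ (V : Type) [AddCommGroup V] [Module ℝ V] (ip en H : V →ₗ[ℝ] V →ₗ[ℝ] ℝ)
    (L : V →ₗ[ℝ] V),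
    (∀ f h, ip f h = ip h f) → (∀ f, 0 ≤ ip f f) → (∀ f h, en f h = en h f) → (∀ f, 0 ≤ en f f) →
    (∀ f h, H f h = H h f) → (∀ f, 0 ≤ H f f) →
    (∀ f h, ip (L f) h = -en f h) → (∀ f, 0 ≤ -H (L f) f) →
    (∃ B : ℝ, ∀ f h, H f h ^ 2 ≤ B * ip (L f) (L f) * ip h h) →
    (∀ l : ℝ, 0 < l → ∀ f, ∀ δ : ℝ, 0 < δ → ∃ v, ip (l • v - L v - f) (l • v - L v - f) < δ) →
    ∀ (K : ℕ) (f₀ : V) (ε : ℝ), 0 < ε → ε ≤ 1 → 0 < ip f₀ f₀ → en f₀ f₀ ≤ ε * ip f₀ f₀ →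
      H f₀ f₀ ≤ ε * ip f₀ f₀ →
      (∀ b, ip b b ≤ 2 * ip f₀ f₀ → en b b ≤ 4 / 2 ^ K * ip f₀ f₀ → ip b f₀ ≤ ip f₀ f₀ / 40) →
      ∃ (v : V) (s : ℝ), 1 ≤ s ∧ s ≤ 2 ^ K ∧ 0 < en v v ∧
        ip v v + s ^ 2 * ip (L v) (L v) + ε⁻¹ * (H v v + s * -H (L v) v) ≤ c₀ * (s * en v v)

/-! ### Global definitions -/

section
variable {n q : ℕ} {Γ : Type} [Group Γ]

/-- `q` closed holomorphic 1-forms on the base, independent on a dense set -/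
structure HF (C : Coc n Γ) (q : ℕ) where
  th : C.I → Cm n → Matrix (Fin n) (Fin q) ℂ
  holo : ∀ a i j, DifferentiableOn ℂ (fun z => th a z i j) (C.Ω a)
  closed : ∀ a, ∀ z ∈ C.Ω a, ∀ i j k, dz k (fun y => th a y i j) z = dz i (fun y => th a y k j) z
  change : ∀ a b, ∀ z ∈ C.O a b, th a z = (jac C a b z).transpose * th b (C.T a b z)
  B : ℝ
  bd : ∀ a, ∀ z ∈ C.Ω a, ∀ i j, ‖th a z i j‖ ≤ B
  dense : ∀ a (U : Set (Cm n)), IsOpen U → U.Nonempty → U ⊆ C.Ω a →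
    ∃ z ∈ U, Function.Injective (th a z).mulVec

/-- `|Ω_A|²` -/
def dD {C : Coc n Γ} (K : KM C) (θ : HF C q) (δ : ℝ) (a : C.I) (z : Cm n) : ℝ :=
  DD (K.w a z) (θ.th a z) δ

/-- `ip_δ f h = ∫ D_δ f h`; `ip_0 f h = ∫ |Ω_A|² f h` -/
def ip {C : Coc n Γ} (P : PU C) (K : KM C) (θ : HF C q) (δ : ℝ) (f h : Γ → C.I → Cm n → ℝ) : ℝ :=
  Int P K fun γ a z => dD K θ δ a z * (f γ a z * h γ a z)

/-- density of the energy; for `δ = 0`: `⟨Ω_A ∧ ∂f, Ω_A ∧ ∂h⟩` -/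
def vA {C : Coc n Γ} (K : KM C) (θ : HF C q) (δ : ℝ) (f h : Γ → C.I → Cm n → ℝ) (γ : Γ) (a : C.I)
    (z : Cm n) : ℝ :=
  qf (AA (K.w a z) (θ.th a z) δ) (pd (f γ a) z) (pd (h γ a) z)

/-- the energy `V_δ(f, h)`; `V_0 = ∫ ⟨Ω_A ∧ ∂f, Ω_A ∧ ∂h⟩` -/
def en {C : Coc n Γ} (P : PU C) (K : KM C) (θ : HF C q) (δ : ℝ) (f h : Γ → C.I → Cm n → ℝ) : ℝ :=
  Int P K (vA K θ δ f h)

/-- `⟨Ω_A ∧ ∂∂̄f, Ω_A ∧ w⟩ = D_δ · (Laplacian of w + δ⁻¹ θ θᴴ)` -/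
def lA {C : Coc n Γ} (K : KM C) (θ : HF C q) (δ : ℝ) (f : Γ → C.I → Cm n → ℝ) (γ : Γ) (a : C.I)
    (z : Cm n) : ℝ :=
  tr1 (AA (K.w a z) (θ.th a z) δ) (cHess (f γ a) z)

/-- density of `|Ω_A ∧ ∂∂̄f|²` -/
def oA {C : Coc n Γ} (K : KM C) (θ : HF C q) (f : Γ → C.I → Cm n → ℝ) (γ : Γ) (a : C.I)
    (z : Cm n) : ℝ :=
  tr2 (AA (K.w a z) (θ.th a z) 0) (K.w a z)⁻¹ (cHess (f γ a) z)

/-- density of `D p²` where `lA K θ 0 = D p` -/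
def pA {C : Coc n Γ} (K : KM C) (θ : HF C q) (f : Γ → C.I → Cm n → ℝ) (γ : Γ) (a : C.I)
    (z : Cm n) : ℝ :=
  lA K θ 0 f γ a z ^ 2 / dD K θ 0 a z

/-- density of `E^{(q-1)}` -/
def eA {C : Coc n Γ} (K : KM C) (θ : HF C q) (f : Γ → C.I → Cm n → ℝ) (γ : Γ) (a : C.I)
    (z : Cm n) : ℝ :=
  ee (K.w a z) (θ.th a z) (pd (f γ a) z)

/-- **Escape** (vertical noncompactness; consequence of `H551.VN2Stmt`). -/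
def Esc {C : Coc n Γ} (P : PU C) (K : KM C) (θ : HF C q) : Prop :=
  ∀ h : ℕ → Γ → C.I → Cm n → ℝ, (∀ j, IsTst C (h j)) →
    (∃ B : ℝ, ∀ j, ip P K θ 0 (h j) (h j) ≤ B) →
    Tendsto (fun j => en P K θ 0 (h j) (h j)) atTop (𝓝 0) → ∀ f, IsTst C f →
    Tendsto (fun j => ip P K θ 0 (h j) f) atTop (𝓝 0)

/-- **Conclusion of (A'')**: almost relatively pluriharmonic test functions, LINEAR form (all terms are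
`Γ`-invariant quadratic forms). Consequences: `∫ oA ≤ c ε ∫ vA`, `(∫ eA) (∫ pA) ≤ c² ε (∫ vA)²`. -/
def APP {C : Coc n Γ} (P : PU C) (K : KM C) (θ : HF C q) : Prop :=
  ∃ c : ℝ, 0 < c ∧ ∀ ε : ℝ, 0 < ε → ∃ (f : Γ → C.I → Cm n → ℝ) (s : ℝ), IsTst C f ∧ 1 ≤ s ∧
    0 < en P K θ 0 f f ∧
    ip P K θ 0 f f + s ^ 2 * Int P K (pA K θ f) + ε⁻¹ * (Int P K (eA K θ f) + s * Int P K (oA K θ f)) ≤
      c * (s * en P K θ 0 f f)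

end

/-- **PB**: Poincaré type bound (V11: mollification; `D` is positive somewhere in every small ball). -/
def PBConcl : Prop :=
  ∀ (n q : ℕ) (Γ : Type) [Group Γ] (C : Coc n Γ) (P : PU C) (K : KM C) (θ : HF C q),
    ∃ c : ℝ, 0 < c ∧ ∀ f, IsTst C f →
      Int P K (fun γ a z => f γ a z ^ 2) ≤ c * (ip P K θ 0 f f + Int P K (Gr K f f))

/-- **PB** -/
def PBStmt : Prop := VPStmt → V3Stmt → V5Concl → V11Stmt → PBConcl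

/-- **(A'')** for `q ≥ 1` -/
def APPStmt : Prop :=
  ∀ (n q : ℕ), 0 < q → ∀ (Γ : Type) [Group Γ] (C : Coc n Γ) (P : PU C) (K : KM C) (θ : HF C q),
    Folner Γ → Esc P K θ → APP P K θ

end Vale.Agent.P284.H402.A
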