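import Vale.Agent.P284.H402.A.Fin
import Vale.Agent.P284.H119.V1
import Vale.Agent.P284.H66.V2
import Vale.Agent.P284.H66.V4
import Vale.Agent.P284.H446.V7L
import Vale.Agent.P284.H359.V6

/-!
# P284 (A''), helper402: the theorem
-/

noncomputable section

namespace Vale.Agent.P284.H402.A

open Vale.Agent.P272.K Vale.Agent.P284.H248 Vale.Agent.P284.H894 Vale.Agent.P284.H894.G
  Vale.Agent.P284.H894.V

theorem v5c : V5Concl :=
  H639.V.v5Stmt H119.V.v1Stmt H66.v2Stmt H730.V.vpStmt H913.V.v3Stmt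

theorem v7c : V7Concl :=
  H446.V.v7Stmt H730.V.vpStmt H913.V.v3Stmt H66.v4Stmt v5c H359.V.v6Stmt

/-- **(A'')** -/
theorem appcStmt : APPcStmt := by
  intro n q hq Γ _ C P K θ hF hE ι _ c hc
  exact app_of H279.a2Stmt a2MainStmt H913.V.v3Stmt v5c v7c hq P K θ hF hE c hc

theorem num_cons {ι : Type} [Fintype ι] {c₀ ε ε' s V i0 pA eA Im : ℝ} {e : ι → ℝ} (hc₀ : 0 < c₀)
    (hε : 0 < ε) (hε' : ε' = ε / (c₀ + c₀ ^ 2)) (hs : 1 ≤ s) (hV : 0 < V) (hi0 : 0 ≤ i0)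
    (hpA : 0 ≤ pA) (heA : 0 ≤ eA) (hIm : 0 ≤ Im) (he : ∀ i, 0 ≤ e i)
    (hle : i0 + s ^ 2 * pA + ε'⁻¹ * (eA + s * Im + ∑ i, s * e i) ≤ c₀ * (s * V)) :
    Im ≤ ε * V ∧ eA * pA ≤ ε * V ^ 2 ∧ ∀ i, e i ≤ ε * V := by
  have hε'0 : 0 < ε' := by rw [hε']; positivity
  have hs0 : 0 < s := by linarith
  have hts : 0 ≤ ∑ i, s * e i := Finset.sum_nonneg fun i _ => mul_nonneg hs0.le (he i)
  set R := eA + s * Im + ∑ i, s * e i with hR
  have hsm : 0 ≤ s * Im := mul_nonneg hs0.le hIm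
  have hR0 : 0 ≤ R := by positivity
  have hsp : 0 ≤ s ^ 2 * pA := by positivity
  have hRle : R ≤ ε' * (c₀ * (s * V)) := by
    have h1 : ε'⁻¹ * R ≤ c₀ * (s * V) := by linarith
    rwa [inv_mul_le_iff₀ hε'0] at h1
  have hple : s ^ 2 * pA ≤ c₀ * (s * V) := by
    have : 0 ≤ ε'⁻¹ * R := mul_nonneg (inv_pos.2 hε'0).le hR0
    linarith
  have hεc : ε' * c₀ ≤ ε := by
    rw [hε', div_mul_eq_mul_div, div_le_iff₀ (by positivity)]
    nlinarith [mul_pos hε hc₀, mul_pos hε (pow_pos hc₀ 2)]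
  have hεc2 : ε' * c₀ ^ 2 ≤ ε := by
    rw [hε', div_mul_eq_mul_div, div_le_iff₀ (by positivity)]
    nlinarith [mul_pos hε hc₀, mul_pos hε (pow_pos hc₀ 2)]
  have hsR : ∀ x : ℝ, s * x ≤ R → x ≤ ε * V := by
    intro x hx
    have h1 : s * x ≤ s * (ε * V) := by
      calc s * x ≤ ε' * (c₀ * (s * V)) := hx.trans hRle
        _ = (ε' * c₀) * (s * V) := by ring
        _ ≤ ε * (s * V) := mul_le_mul_of_nonneg_right hεc (by positivity)
        _ = s * (ε * V) := by ring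
    exact le_of_mul_le_mul_left h1 hs0
  refine ⟨hsR _ (by rw [hR]; linarith), ?_, fun i => hsR _ ?_⟩
  · have h1 : eA ≤ ε' * (c₀ * (s * V)) := by
      refine le_trans ?_ hRle
      rw [hR]
      linarith
    have h2 : s ^ 2 * (eA * pA) ≤ s ^ 2 * (ε * V ^ 2) := by
      calc s ^ 2 * (eA * pA) = eA * (s ^ 2 * pA) := by ring
        _ ≤ (ε' * (c₀ * (s * V))) * (c₀ * (s * V)) := mul_le_mul h1 hple hsp (by positivity)
        _ = (ε' * c₀ ^ 2) * (s ^ 2 * V ^ 2) := by ring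
        _ ≤ ε * (s ^ 2 * V ^ 2) := mul_le_mul_of_nonneg_right hεc2 (by positivity)
        _ = s ^ 2 * (ε * V ^ 2) := by ring
    exact le_of_mul_le_mul_left h2 (by positivity)
  · have h1 : s * e i ≤ ∑ i, s * e i :=
      Finset.single_le_sum (f := fun i => s * e i) (fun i _ => mul_nonneg hs0.le (he i))
        (Finset.mem_univ i)
    rw [hR]
    linarith

/-- consequences of the linear inequality, for given `ε`: the form used for the limit -/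
theorem app_lim {n q : ℕ} (hq : 0 < q) {Γ : Type} [Group Γ] {C : Coc n Γ} (P : PU C) (K : KM C)
    (θ : HF C q) (hF : Folner Γ) (hE : Esc P K θ) {ι : Type} [Fintype ι] (c : ι → Γ)
    (hc : ∀ i g, c i * g = g * c i) (ε : ℝ) (hε : 0 < ε) :
    ∃ (f m : Γ → C.I → Cm n → ℝ), IsTst C f ∧ Fam C m ∧ 0 < en P K θ 0 f f ∧
      (∀ γ a, ∀ z ∈ C.Ω a, 0 ≤ oA K θ f γ a z ∧ 0 ≤ bA K θ f γ a z ∧
        oA K θ f γ a z + bA K θ f γ a z ≤ m γ a z) ∧
      Int P K m ≤ ε * en P K θ 0 f f ∧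
      Int P K (eA K θ f) * Int P K (pA K θ f) ≤ ε * en P K θ 0 f f ^ 2 ∧
      ∀ i, en P K θ 0 (trd (c i) f) (trd (c i) f) ≤ ε * en P K θ 0 f f := by
  obtain ⟨c₀, hc₀, h⟩ := appcStmt n q hq Γ C P K θ hF hE ι c hc
  obtain ⟨f, s, m, hf, hs, hpos, hm, hpt, hle⟩ := h (ε / (c₀ + c₀ ^ 2)) (by positivity)
  have h3 := H913.V.v3Stmt
  have hA := H279.a2Stmt
  have hm0 : 0 ≤ Int P K m := Asm.Int_nonneg h3 P K hm fun γ a z hz => by
    have := hpt γ a z (Asm.V_sub_Ω C a hz)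
    linarith [this.1, this.2.1, this.2.2]
  have hi0 : 0 ≤ ip P K θ 0 f f := ip_nonneg hA h3 le_rfl hf
  have he0 : 0 ≤ Int P K (eA K θ f) := int_eA_nonneg hA h3 hf
  have hp0 : 0 ≤ Int P K (pA K θ f) := Asm.Int_nonneg h3 P K (fam_pA hA hf K θ)
    fun γ a z hz => div_nonneg (sq_nonneg _) (dD_nonneg hA K θ le_rfl (Asm.V_sub_Ω C a hz))
  have ht : ∀ i, 0 ≤ en P K θ 0 (trd (c i) f) (trd (c i) f) := fun i =>
    en_nonneg hA h3 le_rfl (f := trd (c i) f)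
      (H275.trL C (c i) (⟨f, hf⟩ : Asm.tst C) - (⟨f, hf⟩ : Asm.tst C)).2
  obtain ⟨h1, h2, h4⟩ := num_cons (e := fun i => en P K θ 0 (trd (c i) f) (trd (c i) f)) hc₀ hε rfl
    hs hpos hi0 hp0 he0 hm0 ht hle
  exact ⟨f, m, hf, hm, hpos, hpt, h1, h2, h4⟩

end Vale.Agent.P284.H402.A
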