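import Vale.Agent.P284.H402.A.Forms

/-!
# P284 (A''), helper402: the bound of `H`, upper bounds
-/

open scoped Manifold ContDiff Topology Pointwise ComplexConjugate ComplexOrder Matrix
open Filter Set Metric MeasureTheory

noncomputable section

namespace Vale.Agent.P284.H402.A

open Vale.Agent.P272.K Vale.Agent.P272.K.C2 Vale.Agent.P284.H248 Vale.Agent.P284.H894
  Vale.Agent.P284.H894.G Vale.Agent.P284.H894.V Vale.Agent.P284.H894.V.Asm

theorem sq_le_of_forall {X A B : ℝ} (hA : 0 ≤ A) (hB : 0 ≤ B)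
    (h : ∀ t : ℝ, 0 < t → |X| ≤ t * A + B / t) : X ^ 2 ≤ 4 * (A * B) := by
  rcases eq_or_ne X 0 with hX | hX
  · rw [hX]; have := mul_nonneg hA hB; nlinarith
  have hX' : 0 < |X| := abs_pos.2 hX
  rcases hA.eq_or_lt with h0 | h0
  · exfalso
    have h1 := h ((B + 1) / |X| * 2) (by positivity)
    rw [← h0, mul_zero, zero_add, le_div_iff₀ (by positivity)] at h1
    have h2 : |X| * ((B + 1) / |X| * 2) = 2 * (B + 1) := by field_simp
    rw [h2] at h1
    linarith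
  · have h1 := h (|X| / (2 * A)) (by positivity)
    have h2 : |X| / (2 * A) * A + B / (|X| / (2 * A)) = |X| / 2 + 2 * A * B / |X| := by
      field_simp
    rw [h2] at h1
    have h3 : |X| / 2 ≤ 2 * A * B / |X| := by linarith
    rw [le_div_iff₀ hX'] at h3
    rw [← sq_abs]
    nlinarith

section glob
variable {n q : ℕ} {Γ : Type} [Group Γ] {C : Coc n Γ} {P : PU C} {K : KM C} {θ : HF C q} {δ : ℝ}

/-- `Int (D_δ Hh) = ip (Lf) (Lf)` -/
theorem int_hh (h5 : V5Concl) (hδ : 0 < δ) {f : Γ → C.I → Cm n → ℝ} (hf : IsTst C f) :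
    Int P K (fun γ a z => dD K θ δ a z * Hh (KW K θ δ hδ) f f γ a z) =
      ip P K θ δ (Lap (KW K θ δ hδ) f) (Lap (KW K θ δ hδ) f) := by
  rw [ip, Int_KW' P hδ, Int_KW' P hδ, ← h5.kahler C P (KW K θ δ hδ) f f hf hf]

theorem fam_dhh (hδ : 0 < δ) {f : Γ → C.I → Cm n → ℝ} (hf : IsTst C f) :
    Fam C (fun γ a z => dD K θ δ a z * Hh (KW K θ δ hδ) f f γ a z) :=
  fam_base (fam_hh hf (KW K θ δ hδ)) (dD_cont K θ δ) fun _ _ _ hz => dD_inv K θ δ hz

theorem cross_le (hA : A2Stmt) (h3 : V3Stmt) (h5 : V5Concl) (hδ : 0 < δ) (f h : tst C) :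
    (Int P K (fun γ a z => lA K θ 0 f γ a z * (h : Γ → C.I → Cm n → ℝ) γ a z)) ^ 2 ≤
      n * ip P K θ δ (LB h5 K θ δ hδ f) (LB h5 K θ δ hδ f) * ip P K θ δ h h := by
  set X := Int P K (fun γ a z => lA K θ 0 f γ a z * (h : Γ → C.I → Cm n → ℝ) γ a z) with hX
  set A := ip P K θ δ (LB h5 K θ δ hδ f) (LB h5 K θ δ hδ f) with hAA
  set B := ip P K θ δ h h with hB
  have hA0 : 0 ≤ A := ip_nonneg hA h3 hδ.le (LB h5 K θ δ hδ f).2
  have hB0 : 0 ≤ B := ip_nonneg hA h3 hδ.le h.2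
  have F1 : Fam C (fun γ a z => lA K θ 0 f γ a z * (h : Γ → C.I → Cm n → ℝ) γ a z) :=
    fam_sq_mul (fam_lA f.2 K θ 0) (H639.V.isTst_fam h.2)
  have F2 := fam_dhh (K := K) (θ := θ) hδ f.2
  have F3 := fam_ip h.2 h.2 K θ δ
  have key : ∀ t : ℝ, 0 < t → |X| ≤ t * (n * A / 2) + (B / 2) / t := by
    intro t ht
    have hpt : ∀ γ a, ∀ z ∈ C.Ω a, |lA K θ 0 f γ a z * (h : Γ → C.I → Cm n → ℝ) γ a z| ≤
        (t * n / 2) * (dD K θ δ a z * Hh (KW K θ δ hδ) f f γ a z) +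
        (1 / (2 * t)) * (dD K θ δ a z * ((h : Γ → C.I → Cm n → ℝ) γ a z *
          (h : Γ → C.I → Cm n → ℝ) γ a z)) := by
      intro γ a z hz
      have hD := hA.DD_nonneg (K.w a z) (θ.th a z) δ (w_pos K hz) hδ.le
      have hDp : 0 < dD K θ δ a z := hD.2.2 hδ
      have hDle : dD K θ 0 a z ≤ dD K θ δ a z := hD.2.1
      have h1 : lA K θ 0 f γ a z ^ 2 ≤ n * (dD K θ 0 a z * dD K θ δ a z *
          Hh (KW K θ δ hδ) f f γ a z) :=
        hA.tr_zero (K.w a z) (θ.th a z) δ _ (w_pos K hz) hδ (herm_f f.2 γ hz)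
      have h2 : 0 ≤ Hh (KW K θ δ hδ) f f γ a z :=
        tr2_ww_nonneg ((KW K θ δ hδ).ku a |>.pos z hz) (herm_f f.2 γ hz)
      set l := lA K θ 0 f γ a z
      set x := (h : Γ → C.I → Cm n → ℝ) γ a z
      set D := dD K θ δ a z
      set H := Hh (KW K θ δ hδ) f f γ a z
      have h3 : l ^ 2 ≤ n * (D * D * H) := by
        refine h1.trans (mul_le_mul_of_nonneg_left ?_ (Nat.cast_nonneg n))
        exact mul_le_mul_of_nonneg_right (mul_le_mul_of_nonneg_right hDle hDp.le) h2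
      have h4 : t / 2 * (l ^ 2 / D) ≤ (t * n / 2) * (D * H) := by
        have : l ^ 2 / D ≤ n * (D * H) := by
          rw [div_le_iff₀ hDp]
          calc l ^ 2 ≤ _ := h3
            _ = _ := by ring
        calc t / 2 * (l ^ 2 / D) ≤ t / 2 * (n * (D * H)) :=
              mul_le_mul_of_nonneg_left this (by positivity)
          _ = _ := by ring
      have h5 : |l * x| ≤ t / 2 * (l ^ 2 / D) + (1 / (2 * t)) * (D * (x * x)) := by
        have e1 : t / 2 * (l ^ 2 / D) + (1 / (2 * t)) * (D * (x * x)) - l * x =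
            (t * l - D * x) ^ 2 / (2 * t * D) := by
          field_simp
          ring
        have e2 : t / 2 * (l ^ 2 / D) + (1 / (2 * t)) * (D * (x * x)) + l * x =
            (t * l + D * x) ^ 2 / (2 * t * D) := by
          field_simp
          ring
        have g1 : 0 ≤ (t * l - D * x) ^ 2 / (2 * t * D) := by positivity
        have g2 : 0 ≤ (t * l + D * x) ^ 2 / (2 * t * D) := by positivity
        rw [abs_le]
        constructor <;> linarith
      linarith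
    have G1 := fam_add (fam_const_mul F2 (t * n / 2)) (fam_const_mul F3 (1 / (2 * t)))
    have e : Int P K (fun γ a z => (t * n / 2) * (dD K θ δ a z * Hh (KW K θ δ hδ) f f γ a z) +
        (1 / (2 * t)) * (dD K θ δ a z * ((h : Γ → C.I → Cm n → ℝ) γ a z *
          (h : Γ → C.I → Cm n → ℝ) γ a z))) = t * (n * A / 2) + (B / 2) / t := by
      rw [Int_add h3 P K (fam_const_mul F2 _) (fam_const_mul F3 _), Int_mul h3 P K F2,
        Int_mul h3 P K F3, int_hh h5 hδ f.2]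
      have : Int P K (fun γ a z => dD K θ δ a z * ((h : Γ → C.I → Cm n → ℝ) γ a z *
          (h : Γ → C.I → Cm n → ℝ) γ a z)) = B := rfl
      rw [this]
      have : ip P K θ δ (Lap (KW K θ δ hδ) f) (Lap (KW K θ δ hδ) f) = A := rfl
      rw [this]
      field_simp
    rw [← e, abs_le]
    constructor
    · have h1 := Int_mono (P := P) (K := K) h3 (fam_const_mul G1 (-1)) F1 fun γ a z hz => by
        have := (abs_le.1 (hpt γ a z hz)).1
        linarith
      rw [Int_mul h3 P K G1] at h1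
      linarith
    · exact Int_mono h3 F1 G1 fun γ a z hz => (le_abs_self _).trans (hpt γ a z hz)
  have := sq_le_of_forall (X := X) (A := n * A / 2) (B := B / 2) (by positivity) (by positivity) key
  calc X ^ 2 ≤ 4 * (n * A / 2 * (B / 2)) := this
    _ = n * A * B := by ring

/-- `H(f,h)² ≤ B ip(Lf,Lf) ip(h,h)` -/
theorem H_bd (hA : A2Stmt) (h3 : V3Stmt) (h5 : V5Concl) (hδ : 0 < δ) :
    ∃ B : ℝ, ∀ f h : tst C, HB h3 P K θ δ f h ^ 2 ≤
      B * (ipB h3 P K θ δ f f + ipB h3 P K θ δ (LB h5 K θ δ hδ f) (LB h5 K θ δ hδ f)) *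
        ipB h3 P K θ δ h h := by
  refine ⟨δ⁻¹ ^ 2 * (2 * (n + 1)), fun f h => ?_⟩
  set A := ipB h3 P K θ δ (LB h5 K θ δ hδ f) (LB h5 K θ δ hδ f) with hAA
  set B := ipB h3 P K θ δ h h with hB
  have hA0 : 0 ≤ A := ip_nonneg hA h3 hδ.le (LB h5 K θ δ hδ f).2
  have hB0 : 0 ≤ B := ip_nonneg hA h3 hδ.le h.2
  have hf0 : 0 ≤ ipB h3 P K θ δ f f := ip_nonneg hA h3 hδ.le f.2
  have h1 := cross_le (P := P) (K := K) (θ := θ) hA h3 h5 hδ f h
  set X := Int P K (fun γ a z => lA K θ 0 f γ a z * (h : Γ → C.I → Cm n → ℝ) γ a z) with hX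
  have h1' : X ^ 2 ≤ n * A * B := h1
  set Y := ipB h3 P K θ δ (LB h5 K θ δ hδ f) h with hY
  have h2 : Y ^ 2 ≤ A * B := by
    have key : ∀ t : ℝ, 0 ≤ A + 2 * t * Y + t ^ 2 * B := by
      intro t
      have h4 : 0 ≤ ipB h3 P K θ δ (LB h5 K θ δ hδ f + t • h) (LB h5 K θ δ hδ f + t • h) :=
        ip_nonneg hA h3 hδ.le (LB h5 K θ δ hδ f + t • h).2
      have h5' : ipB h3 P K θ δ h (LB h5 K θ δ hδ f) = Y := ip_symm _ _
      simp only [map_add, map_smul, LinearMap.add_apply, LinearMap.smul_apply, smul_eq_mul] at h4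
      rw [h5'] at h4
      nlinarith
    rcases hB0.eq_or_lt with h0 | h0
    · have hY0 : Y = 0 := by
        by_contra hne
        have := key (-(A + 1) / (2 * Y))
        rw [← h0] at this
        have e : A + 2 * (-(A + 1) / (2 * Y)) * Y + (-(A + 1) / (2 * Y)) ^ 2 * 0 = -1 := by
          field_simp
          ring
        rw [e] at this
        linarith
      rw [hY0, ← h0]; simp
    · have := key (-(Y / B))
      have e : A + 2 * -(Y / B) * Y + (-(Y / B)) ^ 2 * B = A - Y ^ 2 / B := by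
        field_simp
        ring
      rw [e] at this
      have h6 : Y ^ 2 / B ≤ A := by linarith
      rwa [div_le_iff₀ h0] at h6
  have e1 : HB h3 P K θ δ f h = δ⁻¹ * (-Y + X) := by
    rw [HB_apply]
    have e2 : en P K θ δ f h = -Y := by
      rw [hY, ip_L hA h3 h5 hδ f h, neg_neg]; rfl
    have e3 : en P K θ 0 f h = -X := by
      rw [hX, ibp_zero hA h5 P K θ f.2 h.2, neg_neg]
    rw [e2, e3]
    ring
  rw [e1]
  have h7 : (-Y + X) ^ 2 ≤ 2 * (n + 1) * (A * B) := by nlinarith [sq_nonneg (Y + X)]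
  have h8 : (δ⁻¹ * (-Y + X)) ^ 2 ≤ δ⁻¹ ^ 2 * (2 * (n + 1) * (A * B)) := by
    rw [mul_pow]
    exact mul_le_mul_of_nonneg_left h7 (by positivity)
  refine h8.trans ?_
  have h9 : 0 ≤ δ⁻¹ ^ 2 * (2 * ((n : ℝ) + 1)) := by positivity
  calc δ⁻¹ ^ 2 * (2 * (n + 1) * (A * B)) = δ⁻¹ ^ 2 * (2 * (n + 1)) * A * B := by ring
    _ ≤ δ⁻¹ ^ 2 * (2 * (n + 1)) * (ipB h3 P K θ δ f f + A) * B := by
      refine mul_le_mul_of_nonneg_right (mul_le_mul_of_nonneg_left ?_ h9) hB0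
      linarith

/-- upper bounds -/
theorem en_up (hA : A2Stmt) (h3 : V3Stmt) (K : KM C) (θ : HF C q) : ∃ c : ℝ, 0 < c ∧
    ∀ δ : ℝ, 0 < δ → δ ≤ 1 →
    (∀ f, IsTst C f → ip P K θ δ f f ≤ c * Int P K (fun γ a z => f γ a z ^ 2)) ∧
    (∀ f, IsTst C f → en P K θ δ f f ≤ c * Int P K (Gr K f f)) ∧
    (∀ f : tst C, HB h3 P K θ δ f f ≤ c * Int P K (Gr K (f : Γ → C.I → Cm n → ℝ) f)) := by
  obtain ⟨c, hc, hup⟩ := hA.up q (Lam K θ)
  refine ⟨c, hc, fun δ hδ hδ1 => ⟨fun f hf => ?_, fun f hf => ?_, fun f => ?_⟩⟩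
  · have F := fam_sq (H639.V.isTst_fam hf)
    rw [← Int_mul h3 P K F]
    refine Int_mono h3 (fam_ip hf hf K θ δ) (fam_const_mul F c) fun γ a z hz => ?_
    rw [← sq]
    exact mul_le_mul_of_nonneg_right (hup _ _ δ (w_pos K hz) hδ.le hδ1 (gram_K K θ hz)).1
      (sq_nonneg _)
  · have F := H639.V.fam_Gr H730.V.vpStmt K hf hf
    rw [← Int_mul h3 P K F]
    refine Int_mono h3 (fam_vA hf hf K θ δ) (fam_const_mul F c) fun γ a z hz => ?_
    have e1 : Gr K f f γ a z = qf (K.w a z)⁻¹ (pd (f γ a) z) (pd (f γ a) z) := by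
      rw [Gr, H730.V.gr_eq, qf_eq]; rfl
    rw [e1]
    exact ((hup _ _ δ (w_pos K hz) hδ.le hδ1 (gram_K K θ hz)).2.2 _).1
  · have F := H639.V.fam_Gr H730.V.vpStmt K f.2 f.2
    rw [HB_apply, ← div_eq_inv_mul, div_le_iff₀ hδ, sub_le_iff_le_add]
    have e : c * Int P K (Gr K (f : Γ → C.I → Cm n → ℝ) f) * δ + en P K θ 0 f f =
        Int P K (fun γ a z => (c * δ) * Gr K (f : Γ → C.I → Cm n → ℝ) f γ a z +
          vA K θ 0 f f γ a z) := by
      rw [Int_add h3 P K (fam_const_mul F _) (fam_vA f.2 f.2 K θ 0), Int_mul h3 P K F, en]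
      ring
    rw [e]
    refine Int_mono h3 (fam_vA f.2 f.2 K θ δ)
      (fam_add (fam_const_mul F _) (fam_vA f.2 f.2 K θ 0)) fun γ a z hz => ?_
    have e1 : Gr K (f : Γ → C.I → Cm n → ℝ) f γ a z =
        qf (K.w a z)⁻¹ (pd ((f : Γ → C.I → Cm n → ℝ) γ a) z)
          (pd ((f : Γ → C.I → Cm n → ℝ) γ a) z) := by
      rw [Gr, H730.V.gr_eq, qf_eq]; rfl
    rw [e1]
    have := ((hup _ _ δ (w_pos K hz) hδ.le hδ1 (gram_K K θ hz)).2.2
      (pd ((f : Γ → C.I → Cm n → ℝ) γ a) z)).2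
    rw [vA, vA]
    linarith

end glob

end Vale.Agent.P284.H402.A
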