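import Vale.Agent.P284.H402.A.Bound
import Vale.Agent.P284.H213.A.WJ
import Vale.Agent.P284.H279.A2g
import Vale.Agent.P284.H275.Cen
import Vale.Agent.P284.H501.A1K
import Vale.Agent.P284.H501.Dens

/-!
# P284 (A''), helper402: assembly
-/

open scoped Manifold ContDiff Topology Pointwise ComplexConjugate ComplexOrder Matrix
open Filter Set Metric MeasureTheory

noncomputable section

namespace Vale.Agent.P284.H402.A

open Vale.Agent.P272.K Vale.Agent.P272.K.C2 Vale.Agent.P284.H248 Vale.Agent.P284.H894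
  Vale.Agent.P284.H894.G Vale.Agent.P284.H894.V Vale.Agent.P284.H894.V.Asm

theorem a2MainStmt : A2MainStmt := fun q Λ hq => H279.main' q Λ hq

theorem BB_psd {n q : ℕ} {w : Matrix (Fin n) (Fin n) ℂ} (hw : w.PosDef)
    (θ : Matrix (Fin n) (Fin q) ℂ) : (BB w θ).PosSemidef := by
  have hT : ((TT w θ 0)⁻¹).IsHermitian := (TT_herm hw θ 0).inv
  have hwi : (w⁻¹).IsHermitian := hw.inv.isHermitian
  have e : BB w θ = (w⁻¹ * θ * (TT w θ 0)⁻¹) * (w⁻¹ * θ * (TT w θ 0)⁻¹)ᴴ := by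
    rw [Matrix.conjTranspose_mul, Matrix.conjTranspose_mul, hT.eq, hwi.eq, BB]
    simp only [Matrix.mul_assoc]
  rw [e]
  exact Matrix.posSemidef_self_mul_conjTranspose _

theorem tr2_nonneg {n : ℕ} {A B x : Matrix (Fin n) (Fin n) ℂ} (hA : A.PosSemidef)
    (hB : B.PosSemidef) (hx : x.IsHermitian) : 0 ≤ tr2 A B x := by
  have h1 : A * x * (B * x) = A * (xᴴ * B * x) := by
    rw [hx.eq]
    simp only [Matrix.mul_assoc]
  rw [tr2, h1]
  exact H730.V.trace_mul_nonneg hA (hB.conjTranspose_mul_mul_same x)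

section glob
variable {n q : ℕ} {Γ : Type} [Group Γ] {C : Coc n Γ}

/-- pointwise domination by the dissipation density -/
theorem nA_ge (hA : A2Stmt) (hM : A2MainStmt) (hq : 0 < q) (K : KM C) (θ : HF C q) :
    ∃ c : ℝ, 0 < c ∧ ∀ (δ : ℝ) (hδ : 0 < δ), δ ≤ 1 → ∀ f, IsTst C f → ∀ γ a, ∀ z ∈ C.Ω a,
      0 ≤ oA K θ f γ a z ∧ 0 ≤ bA K θ f γ a z ∧
      c * (oA K θ f γ a z + bA K θ f γ a z) ≤ nA K θ δ hδ f γ a z := by
  obtain ⟨c, hc, hm⟩ := hM q (Lam K θ) hq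
  refine ⟨c, hc, fun δ hδ hδ1 f hf γ a z hz => ⟨?_, ?_, ?_⟩⟩
  · exact tr2_nonneg (hA.herm _ _ 0 (w_pos K hz) le_rfl) (w_pos K hz).inv.posSemidef
      (herm_f hf γ hz)
  · exact tr2_nonneg (hA.herm _ _ 0 (w_pos K hz) le_rfl) (BB_psd (w_pos K hz) _) (herm_f hf γ hz)
  · have h1 := hm (K.w a z) (θ.th a z) δ (cHess (f γ a) z) (w_pos K hz) hδ hδ1 (herm_f hf γ hz)
      (gram_K K θ hz)
    have h2 : pA K θ f γ a z - qA K θ 0 f γ a z =
        tr2 (AA (K.w a z) (θ.th a z) 0) (AA (K.w a z) (θ.th a z) 0) (cHess (f γ a) z) /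
          DD (K.w a z) (θ.th a z) 0 := by
      rw [pA, qA, QQ, lA, dD]
      ring
    have h3 : dD K θ δ a z * Hh (KW K θ δ hδ) f f γ a z = DD (K.w a z) (θ.th a z) δ *
        tr2 (WW (K.w a z) (θ.th a z) δ)⁻¹ (WW (K.w a z) (θ.th a z) δ)⁻¹ (cHess (f γ a) z) := rfl
    rw [nA, h2, h3, ← div_eq_inv_mul, le_div_iff₀ hδ]
    have h4 : c * (oA K θ f γ a z + bA K θ f γ a z) * δ = c * δ *
        (tr2 (AA (K.w a z) (θ.th a z) 0) (K.w a z)⁻¹ (cHess (f γ a) z) +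
          tr2 (AA (K.w a z) (θ.th a z) 0) (BB (K.w a z) (θ.th a z)) (cHess (f γ a) z)) := by
      rw [oA, bA]; ring
    rw [h4]
    linarith

theorem trd_coe (c : Γ) (f : tst C) :
    (((H275.trL C c f - f : tst C)) : Γ → C.I → Cm n → ℝ) = trd c f := rfl

theorem dens_B (h3 : V3Stmt) (h5 : V5Concl) (h7 : V7Concl) (P : PU C) (K : KM C) (θ : HF C q)
    {δ : ℝ} (hδ : 0 < δ) (l : ℝ) (hl : 0 < l) (f : tst C) (η : ℝ) (hη : 0 < η) :
    ∃ v : tst C, ipB h3 P K θ δ (l • v - LB h5 K θ δ hδ v - f)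
      (l • v - LB h5 K θ δ hδ v - f) < η := by
  obtain ⟨v, hv⟩ := H501.dens H730.V.vpStmt h3 h5 h7 P (KW K θ δ hδ) l hl f (η / δ ^ q)
    (by positivity)
  refine ⟨v, ?_⟩
  have e : ∀ g : tst C, ipB h3 P K θ δ g g = δ ^ q * ipF h3 h5 P (KW K θ δ hδ) g g := by
    intro g
    rw [ipB_apply, ip, Int_KW' P hδ]
    rfl
  rw [e]
  have h1 : 0 < δ ^ q := pow_pos hδ q
  calc _ < δ ^ q * (η / δ ^ q) := mul_lt_mul_of_pos_left hv h1
    _ = η := by field_simp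

/-- `D` is not identically zero -/
theorem exists_D (hA : A2Stmt) (K : KM C) (θ : HF C q) : ∃ a, ∃ z ∈ C.V a, dD K θ 0 a z ≠ 0 := by
  obtain ⟨a⟩ := C.ne
  have hr := C.r_pos a
  obtain ⟨z, hz, hi⟩ := θ.dense a (C.V a) isOpen_ball
    ⟨C.c a, mem_ball_self (by linarith)⟩ (V_sub_Ω C a)
  exact ⟨a, z, hz, (hA.DD_pos _ _ (w_pos K (V_sub_Ω C a hz)) hi).ne'⟩

/-- nonnegativity of the dissipation -/
theorem diss_facts (hA : A2Stmt) (h3 : V3Stmt) (h5 : V5Concl) (P : PU C) (K : KM C) (θ : HF C q)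
    {cm δ : ℝ} (hcm : 0 < cm) (hδ : 0 < δ) (f : tst C)
    (hm : ∀ γ a, ∀ z ∈ C.Ω a, 0 ≤ oA K θ f γ a z ∧ 0 ≤ bA K θ f γ a z ∧
      cm * (oA K θ f γ a z + bA K θ f γ a z) ≤ nA K θ δ hδ f γ a z) :
    0 ≤ Int P K (rA K θ δ hδ f) ∧ 0 ≤ Int P K (nA K θ δ hδ f) ∧
    0 ≤ -HB h3 P K θ δ (LB h5 K θ δ hδ f) f ∧
    Int P K (nA K θ δ hδ f) ≤ 2 * -HB h3 P K θ δ (LB h5 K θ δ hδ f) f ∧
    Int P K (pA K θ f) ≤ 2 * ipB h3 P K θ δ (LB h5 K θ δ hδ f) (LB h5 K θ δ hδ f) +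
      4 * δ * -HB h3 P K θ δ (LB h5 K θ δ hδ f) f := by
  have h1 := H_diss (P := P) (K := K) (θ := θ) hA h3 h5 hδ f
  have h2 : 0 ≤ Int P K (rA K θ δ hδ f) := Int_nonneg h3 P K (fam_rA hA h5 hδ f.2)
    fun γ a z hz => (pt_main hA hδ γ (V_sub_Ω C a hz)).1
  have h4 : 0 ≤ Int P K (nA K θ δ hδ f) := Int_nonneg h3 P K (fam_nA hA hδ f.2)
    fun γ a z hz => by
      have h5 := hm γ a z (V_sub_Ω C a hz)
      exact (mul_nonneg hcm.le (add_nonneg h5.1 h5.2.1)).trans h5.2.2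
  set M : ℝ := -HB h3 P K θ δ (LB h5 K θ δ hδ f) f with hM
  have h6 := mul_nonneg hδ.le h4
  have h7 : 0 ≤ δ * M := by linarith
  have h8 : 0 ≤ M := nonneg_of_mul_nonneg_right h7 hδ
  have h9 : Int P K (nA K θ δ hδ f) ≤ 2 * M := by
    have h10 : δ * Int P K (nA K θ δ hδ f) ≤ δ * (2 * M) := by
      have : δ * (2 * M) = 2 * (δ * M) := by ring
      rw [this]
      linarith
    exact le_of_mul_le_mul_left h10 hδ
  have hrM : Int P K (rA K θ δ hδ f) ≤ 2 * δ * M := by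
    have : 2 * δ * M = 2 * (δ * M) := by ring
    rw [this]
    linarith
  refine ⟨h2, h4, h8, h9, ?_⟩
  have F1 := fam_ip (LB h5 K θ δ hδ f).2 (LB h5 K θ δ hδ f).2 K θ δ
  have F2 := fam_rA (K := K) (θ := θ) hA h5 hδ f.2
  have e : 2 * ipB h3 P K θ δ (LB h5 K θ δ hδ f) (LB h5 K θ δ hδ f) +
      2 * Int P K (rA K θ δ hδ f) = Int P K (fun γ a z => 2 * (dD K θ δ a z *
        (((LB h5 K θ δ hδ f : tst C) : Γ → C.I → Cm n → ℝ) γ a z *
        ((LB h5 K θ δ hδ f : tst C) : Γ → C.I → Cm n → ℝ) γ a z)) +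
        2 * rA K θ δ hδ f γ a z) := by
    rw [Int_add h3 P K (fam_const_mul F1 2) (fam_const_mul F2 2), Int_mul h3 P K F1,
      Int_mul h3 P K F2]
    rfl
  have h11 : Int P K (pA K θ f) ≤ 2 * ipB h3 P K θ δ (LB h5 K θ δ hδ f) (LB h5 K θ δ hδ f) +
      2 * Int P K (rA K θ δ hδ f) := by
    rw [e]
    refine Int_mono h3 (fam_pA hA f.2 K θ) (fam_add (fam_const_mul F1 2) (fam_const_mul F2 2))
      fun γ a z hz => ?_
    have h2 := (pt_main (K := K) (θ := θ) hA hδ (f := (f : Γ → C.I → Cm n → ℝ)) γ hz).2.1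
    rw [sq] at h2
    exact h2
  linarith

/-- **selection** -/
theorem sel (hA : A2Stmt) (hM : A2MainStmt) (h3 : V3Stmt) (h5 : V5Concl) (h7 : V7Concl)
    (hq : 0 < q) (P : PU C) (K : KM C) (θ : HF C q) (hF : Folner Γ) (hE : Esc P K θ) {ι : Type}
    [Fintype ι] (c : ι → Γ) (hc : ∀ i g, c i * g = g * c i) {ε : ℝ} (hε : 0 < ε) (hε1 : ε ≤ 1) :
    ∃ (δ : ℝ) (hδ : 0 < δ) (v : tst C) (s : ℝ), δ ≤ 1 ∧ 1 ≤ s ∧ δ * s ≤ 1 / 4000 ∧
      0 < enB h3 P K θ δ v v ∧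
      ipB h3 P K θ δ v v + s ^ 2 * ipB h3 P K θ δ (LB h5 K θ δ hδ v) (LB h5 K θ δ hδ v) +
      ε⁻¹ * (HB h3 P K θ δ v v + s * -HB h3 P K θ δ (LB h5 K θ δ hδ v) v +
        ∑ i, (ipB h3 P K θ δ (H275.trL C (c i) v - v) (H275.trL C (c i) v - v) +
          s * enB h3 P K θ δ (H275.trL C (c i) v - v) (H275.trL C (c i) v - v))) ≤
      2000 * (s * enB h3 P K θ δ v v) := by
  obtain ⟨cm, hcm, hm⟩ := nA_ge hA hM hq K θ
  obtain ⟨cu, hcu, hup⟩ := en_up (P := P) hA h3 K θ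
  -- the Følner function
  obtain ⟨f₀, hf₀, hfol⟩ := H275.cen_folner H730.V.vpStmt h3 P K hF c hc (dD K θ 0)
    (dD_cont K θ 0) (fun a z hz => dD_nonneg hA K θ le_rfl hz) (fun a b z hz => dD_inv K θ 0 hz)
    (exists_D hA K θ) (ε := ε / (cu + 1)) (by positivity)
  set F₀ : tst C := ⟨f₀, hf₀⟩ with hF₀
  have hT2 : ∀ i, Fam C (fun γ a z => (H275.tr (c i) f₀ γ a z - f₀ γ a z) ^ 2) := fun i =>
    fam_sq (H639.V.isTst_fam (H275.trL C (c i) F₀ - F₀).2)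
  have hG0 : 0 ≤ Int P K (Gr K f₀ f₀) :=
    Int_nonneg h3 P K (H639.V.fam_Gr H730.V.vpStmt K hf₀ hf₀) fun γ a z hz =>
      (H730.V.vp_nonneg _ _ _ (w_pos K (V_sub_Ω C a hz))).1
  have hS0 : ∀ i, 0 ≤ Int P K (fun γ a z => (H275.tr (c i) f₀ γ a z - f₀ γ a z) ^ 2) := fun i =>
    Int_nonneg h3 P K (hT2 i) fun γ a z _ => sq_nonneg _
  have hSS : 0 ≤ ∑ i, Int P K (fun γ a z => (H275.tr (c i) f₀ γ a z - f₀ γ a z) ^ 2) :=
    Finset.sum_nonneg fun i _ => hS0 i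
  have hIe : Int P K (fun γ a z => dD K θ 0 a z * f₀ γ a z ^ 2) = ip P K θ 0 f₀ f₀ :=
    Int_congr P K fun γ a z _ => by rw [sq]
  rw [hIe] at hfol
  have hpos : 0 < ip P K θ 0 f₀ f₀ := by
    have h1 : 0 < ε / (cu + 1) * ip P K θ 0 f₀ f₀ := lt_of_le_of_lt (add_nonneg hG0 hSS) hfol
    exact pos_of_mul_pos_right h1 (by positivity)
  have hfol' : cu * (Int P K (Gr K f₀ f₀) +
      ∑ i, Int P K (fun γ a z => (H275.tr (c i) f₀ γ a z - f₀ γ a z) ^ 2)) ≤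
      ε * ip P K θ 0 f₀ f₀ := by
    have h1 := mul_le_mul_of_nonneg_left hfol.le hcu.le
    refine h1.trans ?_
    have h2 : cu * (ε / (cu + 1) * ip P K θ 0 f₀ f₀) =
        (cu / (cu + 1)) * (ε * ip P K θ 0 f₀ f₀) := by
      field_simp
    rw [h2]
    have h4 : cu / (cu + 1) ≤ 1 := by
      rw [div_le_one (by linarith)]
      linarith
    exact mul_le_of_le_one_left (by positivity) h4
  obtain ⟨J, d0, hd0, hwj⟩ := H213.WJ.wj h3 hA C P K θ hE f₀ hf₀ hpos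
  -- choice of `δ`
  set δ : ℝ := min (min d0 1) (1 / (4000 * 2 ^ J)) with hδdef
  have hδ : 0 < δ := lt_min (lt_min hd0 one_pos) (by positivity)
  have hδ1 : δ ≤ 1 := (min_le_left _ _).trans (min_le_right _ _)
  have hδd : δ ≤ d0 := (min_le_left _ _).trans (min_le_left _ _)
  have hδJ : δ * 2 ^ J ≤ 1 / 4000 := by
    have h1 : δ ≤ 1 / (4000 * 2 ^ J) := min_le_right _ _
    have h2 : (0 : ℝ) < 2 ^ J := by positivity
    calc δ * 2 ^ J ≤ 1 / (4000 * 2 ^ J) * 2 ^ J := mul_le_mul_of_nonneg_right h1 h2.le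
      _ = 1 / 4000 := by field_simp
  obtain ⟨hup1, hup2, hup3⟩ := hup δ hδ hδ1
  have hip0 : ip P K θ 0 f₀ f₀ ≤ ip P K θ δ f₀ f₀ := ip_zero_le hA h3 hδ.le hf₀
  have hGle : cu * Int P K (Gr K f₀ f₀) ≤ ε * ip P K θ δ f₀ f₀ := by
    have h1 : 0 ≤ cu * ∑ i, Int P K (fun γ a z => (H275.tr (c i) f₀ γ a z - f₀ γ a z) ^ 2) :=
      mul_nonneg hcu.le hSS
    have h2 := mul_le_mul_of_nonneg_left hip0 hε.le
    rw [mul_add] at hfol'
    linarith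
  have key := H501.a1T (V := tst C) (fun i => H275.trL C (c i))
    (ipB h3 P K θ δ) (enB h3 P K θ δ) (HB h3 P K θ δ) (LB h5 K θ δ hδ)
    (fun f => -HB h3 P K θ δ (LB h5 K θ δ hδ f) f)
    (fun i f => rfl)
    (fun i f => le_of_eq (by
      rw [ipB_apply, ipB_apply]
      exact H275.Int_tr' P K (c i) (fun γ a z => dD K θ δ a z *
        ((f : Γ → C.I → Cm n → ℝ) γ a z * (f : Γ → C.I → Cm n → ℝ) γ a z))))
    (fun f h => ip_symm _ _) (fun f => ip_nonneg hA h3 hδ.le f.2)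
    (fun f h => en_symm hA hδ.le _ _) (fun f => en_nonneg hA h3 hδ.le f.2)
    (H_symm hA h3 hδ) (H_nonneg hA h3 hδ) (ip_L hA h3 h5 hδ)
    (fun f => (diss_facts hA h3 h5 P K θ hcm hδ f (hm δ hδ hδ1 f f.2)).2.2.1)
    (fun f => le_rfl) (H_bd hA h3 h5 hδ)
    (fun l hl f η hη => dens_B h3 h5 h7 P K θ hδ l hl f η hη)
    J F₀ ε hε hε1 (lt_of_lt_of_le hpos hip0)
    (by
      show en P K θ δ f₀ f₀ ≤ ε * ip P K θ δ f₀ f₀
      exact (hup2 f₀ hf₀).trans hGle)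
    (by
      have h1 : HB h3 P K θ δ F₀ F₀ ≤ cu * Int P K (Gr K f₀ f₀) := hup3 F₀
      have h2 : ∑ i, ipB h3 P K θ δ (H275.trL C (c i) F₀ - F₀) (H275.trL C (c i) F₀ - F₀) ≤
          cu * ∑ i, Int P K (fun γ a z => (H275.tr (c i) f₀ γ a z - f₀ γ a z) ^ 2) := by
        rw [Finset.mul_sum]
        exact Finset.sum_le_sum fun i _ => hup1 _ (H275.trL C (c i) F₀ - F₀).2
      have h4 : ε * ip P K θ 0 f₀ f₀ ≤ ε * ipB h3 P K θ δ F₀ F₀ :=
        mul_le_mul_of_nonneg_left hip0 hε.le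
      rw [mul_add] at hfol'
      linarith)
    (fun b hb1 hb2 => hwj δ hδ hδd b b.2 hb1 hb2)
  obtain ⟨v, s, hs1, hsJ, hev, hmain⟩ := key
  exact ⟨δ, hδ, v, s, hδ1, hs1, (mul_le_mul_of_nonneg_left hsJ hδ.le).trans hδJ, hev, hmain⟩

/-- the final computation -/
theorem num_fin {i0 i1 l2 pA eA Im ens Hv M Sb s E en0 ei e0i cmi δ : ℝ} (h1 : i0 ≤ i1)
    (h2 : pA ≤ 2 * l2 + 4 * δ * M) (h3 : δ * s ≤ 1 / 4000) (hδ : 0 < δ) (hs : 1 ≤ s) (hM : 0 ≤ M)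
    (h4 : eA ≤ Hv) (h5 : Im ≤ cmi * (2 * M)) (h6 : ens ≤ Sb) (hi1 : 0 ≤ i1) (hl2 : 0 ≤ l2)
    (heA : 0 ≤ eA) (hIm : 0 ≤ Im) (hens : 0 ≤ ens) (hcmi : 0 < cmi)
    (hE : E = en0 + δ * Hv) (hEpos : 0 < E) (h7 : e0i ≤ ei) (h8 : 1 ≤ ei)
    (hmain : i1 + s ^ 2 * l2 + ei * (Hv + s * M + Sb) ≤ 2000 * (s * E)) :
    0 < en0 ∧ i0 + s ^ 2 * pA + e0i * (eA + s * Im + ens) ≤
      4000 * (3 + 2 * cmi) * (s * en0) := by
  have hs0 : 0 < s := by linarith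
  have hHv : 0 ≤ Hv := heA.trans h4
  have hSb : 0 ≤ Sb := hens.trans h6
  have hsM : 0 ≤ s * M := mul_nonneg hs0.le hM
  have hei : 0 ≤ ei := by linarith
  set BR : ℝ := Hv + s * M + Sb with hBR
  have hBR0 : 0 ≤ BR := by positivity
  have hb1 : BR ≤ ei * BR := le_mul_of_one_le_left hBR0 h8
  have hsl : 0 ≤ s ^ 2 * l2 := by positivity
  have hHE : Hv ≤ 2000 * (s * E) := by
    have : Hv ≤ BR := by rw [hBR]; linarith
    linarith
  have hδH : δ * Hv ≤ E / 2 := by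
    calc δ * Hv ≤ δ * (2000 * (s * E)) := mul_le_mul_of_nonneg_left hHE hδ.le
      _ = (δ * s) * (2000 * E) := by ring
      _ ≤ 1 / 4000 * (2000 * E) := mul_le_mul_of_nonneg_right h3 (by linarith)
      _ = E / 2 := by ring
  have hE2 : E ≤ 2 * en0 := by linarith
  refine ⟨by linarith, ?_⟩
  have hspA : s ^ 2 * pA ≤ 2 * (s ^ 2 * l2) + s * M := by
    have g1 := mul_le_mul_of_nonneg_left h2 (sq_nonneg s)
    have g2 : s ^ 2 * (4 * δ * M) ≤ s * M := by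
      calc s ^ 2 * (4 * δ * M) = 4 * (δ * s) * (s * M) := by ring
        _ ≤ 1 * (s * M) := mul_le_mul_of_nonneg_right (by linarith) hsM
        _ = s * M := one_mul _
    linarith
  have hB : eA + s * Im + ens ≤ (1 + 2 * cmi) * BR := by
    have g2 : s * Im ≤ 2 * cmi * (s * M) := by
      calc _ ≤ s * (cmi * (2 * M)) := mul_le_mul_of_nonneg_left h5 hs0.le
        _ = _ := by ring
    have g5 : 0 ≤ cmi * Hv := mul_nonneg hcmi.le hHv
    have g6 : 0 ≤ cmi * Sb := mul_nonneg hcmi.le hSb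
    rw [hBR]
    linarith
  have hBr0 : 0 ≤ eA + s * Im + ens := by positivity
  have hbr := mul_le_mul_of_nonneg_right h7 hBr0
  have hbr2 := mul_le_mul_of_nonneg_left hB hei
  have hsMB : s * M ≤ BR := by rw [hBR]; linarith
  have g7 : 0 ≤ cmi * i1 := mul_nonneg hcmi.le hi1
  have g8 : 0 ≤ cmi * (s ^ 2 * l2) := mul_nonneg hcmi.le hsl
  have g9 : (3 + 2 * cmi) * (i1 + s ^ 2 * l2 + ei * BR) ≤
      (3 + 2 * cmi) * (4000 * (s * en0)) := by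
    refine mul_le_mul_of_nonneg_left (hmain.trans ?_) (by linarith)
    have := mul_le_mul_of_nonneg_left hE2 hs0.le
    linarith
  have g10 : i0 + s ^ 2 * pA + e0i * (eA + s * Im + ens) ≤
      (3 + 2 * cmi) * (i1 + s ^ 2 * l2 + ei * BR) := by
    have e1 : (3 + 2 * cmi) * (i1 + s ^ 2 * l2 + ei * BR) = 3 * i1 + 2 * (cmi * i1) +
      3 * (s ^ 2 * l2) + 2 * (cmi * (s ^ 2 * l2)) + 2 * (ei * BR) +
        ei * ((1 + 2 * cmi) * BR) := by ring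
    rw [e1]
    linarith
  calc _ ≤ _ := g10
    _ ≤ _ := g9
    _ = _ := by ring

/-- **(A'')**, assembly for fixed data. -/
theorem app_of (hA : A2Stmt) (hM : A2MainStmt) (h3 : V3Stmt) (h5 : V5Concl) (h7 : V7Concl)
    (hq : 0 < q) (P : PU C) (K : KM C) (θ : HF C q) (hF : Folner Γ) (hE : Esc P K θ) {ι : Type}
    [Fintype ι] (c : ι → Γ) (hc : ∀ i g, c i * g = g * c i) : APPc P K θ c := by
  obtain ⟨cm, hcm, hm⟩ := nA_ge hA hM hq K θ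
  refine ⟨4000 * (3 + 2 * cm⁻¹), by positivity, fun ε₀ hε₀ => ?_⟩
  have hε : 0 < min ε₀ 1 := lt_min hε₀ one_pos
  obtain ⟨δ, hδ, v, s, hδ1, hs1, hδs, hev, hmain⟩ := sel hA hM h3 h5 h7 hq P K θ hF hE c hc hε
    (min_le_right ε₀ 1)
  have hmv := hm δ hδ hδ1 v v.2
  obtain ⟨hr0, hn0, hM0, hnM, hpA⟩ := diss_facts hA h3 h5 P K θ hcm hδ v hmv
  have hcmi : 0 < cm⁻¹ := inv_pos.2 hcm
  have hIm : Int P K (fun γ a z => cm⁻¹ * nA K θ δ hδ v γ a z) ≤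
      cm⁻¹ * (2 * -HB h3 P K θ δ (LB h5 K θ δ hδ v) v) := by
    rw [Int_mul h3 P K (fam_nA hA hδ v.2)]
    exact mul_le_mul_of_nonneg_left hnM hcmi.le
  have hIm0 : 0 ≤ Int P K (fun γ a z => cm⁻¹ * nA K θ δ hδ v γ a z) := by
    rw [Int_mul h3 P K (fam_nA hA hδ v.2)]
    exact mul_nonneg hcmi.le hn0
  have hen0 : ∀ i, 0 ≤ en P K θ 0 (trd (c i) v) (trd (c i) v) := fun i =>
    en_nonneg hA h3 le_rfl (H275.trL C (c i) v - v).2
  have henle : ∀ i, en P K θ 0 (trd (c i) v) (trd (c i) v) ≤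
      enB h3 P K θ δ (H275.trL C (c i) v - v) (H275.trL C (c i) v - v) := fun i => by
    have h1 := en_zero_le (P := P) (K := K) (θ := θ) hA h3 hδ.le (H275.trL C (c i) v - v).2
    have h2 := int_eA_nonneg (P := P) (K := K) (θ := θ) hA h3 (H275.trL C (c i) v - v).2
    have h4 := mul_nonneg hδ.le h2
    have h5 : en P K θ 0 (trd (c i) v) (trd (c i) v) =
      en P K θ 0 (H275.trL C (c i) v - v : tst C) (H275.trL C (c i) v - v : tst C) := rfl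
    rw [h5]
    exact le_trans (by linarith) h1
  have hsum : ∑ i, s * en P K θ 0 (trd (c i) v) (trd (c i) v) ≤
      ∑ i, (ipB h3 P K θ δ (H275.trL C (c i) v - v) (H275.trL C (c i) v - v) +
        s * enB h3 P K θ δ (H275.trL C (c i) v - v) (H275.trL C (c i) v - v)) :=
    Finset.sum_le_sum fun i _ => by
      have h1 := mul_le_mul_of_nonneg_left (henle i) (by linarith : (0 : ℝ) ≤ s)
      have h2 : 0 ≤ ipB h3 P K θ δ (H275.trL C (c i) v - v) (H275.trL C (c i) v - v) :=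
        ip_nonneg hA h3 hδ.le (H275.trL C (c i) v - v).2
      linarith
  have hfin := num_fin (i0 := ip P K θ 0 v v) (pA := Int P K (pA K θ v))
    (eA := Int P K (eA K θ v)) (Im := Int P K (fun γ a z => cm⁻¹ * nA K θ δ hδ v γ a z))
    (en0 := en P K θ 0 v v) (e0i := ε₀⁻¹) (cmi := cm⁻¹)
    (ip_zero_le (P := P) (K := K) (θ := θ) hA h3 hδ.le v.2) hpA hδs hδ hs1 hM0
    (H_ge (P := P) (K := K) (θ := θ) hA h3 hδ v) hIm hsum
    (ip_nonneg hA h3 hδ.le v.2) (ip_nonneg hA h3 hδ.le (LB h5 K θ δ hδ v).2)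
    (int_eA_nonneg hA h3 v.2) hIm0
    (Finset.sum_nonneg fun i _ => mul_nonneg (by linarith) (hen0 i)) hcmi
    (by
      rw [HB_apply, ← mul_assoc, mul_inv_cancel₀ hδ.ne', one_mul]
      show en P K θ δ v v = _
      ring) hev (inv_anti₀ hε (min_le_left _ _)) ((one_le_inv₀ hε).2 (min_le_right _ _)) hmain
  refine ⟨v, s, fun γ a z => cm⁻¹ * nA K θ δ hδ v γ a z, v.2, hs1, hfin.1,
    fam_const_mul (fam_nA hA hδ v.2) _, fun γ a z hz => ?_, hfin.2⟩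
  have h1 := hmv γ a z hz
  refine ⟨h1.1, h1.2.1, ?_⟩
  show _ ≤ cm⁻¹ * nA K θ δ hδ v γ a z
  rw [← div_eq_inv_mul, le_div_iff₀ hcm]
  linarith [h1.2.2]

end glob

end Vale.Agent.P284.H402.A
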