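import Vale.Agent.P284.H402.A.Ident
import Vale.Agent.P284.H402.A.Spec2
import Vale.Agent.P284.H275.Tr

/-!
# P284 (A''), helper402: bilinear forms on the test functions, dissipativity
-/

open scoped Manifold ContDiff Topology Pointwise ComplexConjugate ComplexOrder Matrix
open Filter Set Metric MeasureTheory

noncomputable section

namespace Vale.Agent.P284.H402.A

open Vale.Agent.P272.K Vale.Agent.P272.K.C2 Vale.Agent.P284.H248 Vale.Agent.P284.H894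
  Vale.Agent.P284.H894.G Vale.Agent.P284.H894.V Vale.Agent.P284.H894.V.Asm

section lin
variable {n : ℕ} {A : Matrix (Fin n) (Fin n) ℂ}

theorem qf_add_left (α α' β : Fin n → ℂ) : qf A (α + α') β = qf A α β + qf A α' β := by
  rw [qf_eq, qf_eq, qf_eq, H730.V.S_add_left, Complex.add_re]

theorem qf_add_right (α β β' : Fin n → ℂ) : qf A α (β + β') = qf A α β + qf A α β' := by
  rw [qf_eq, qf_eq, qf_eq, H730.V.S_add_right, Complex.add_re]

theorem qf_smul_left (c : ℝ) (α β : Fin n → ℂ) : qf A ((c : ℂ) • α) β = c * qf A α β := by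
  rw [qf_eq, qf_eq, H730.V.S_smul_left, Complex.re_ofReal_mul]

theorem qf_smul_right (c : ℝ) (α β : Fin n → ℂ) : qf A α ((c : ℂ) • β) = c * qf A α β := by
  rw [qf_eq, qf_eq, H730.V.S_smul_right, Complex.re_ofReal_mul]

theorem qf_symm (hA : A.IsHermitian) (α β : Fin n → ℂ) : qf A α β = qf A β α := by
  rw [qf_eq, qf_eq, H730.V.S_re_symm hA]

theorem qf_nonneg (hA : A.PosSemidef) (α : Fin n → ℂ) : 0 ≤ qf A α α := by
  rw [qf_eq]; exact H730.V.S_nonneg hA α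

theorem pd_add {f g : Cm n → ℝ} {z : Cm n} (hf : DifferentiableAt ℝ f z)
    (hg : DifferentiableAt ℝ g z) : pd (fun y => f y + g y) z = pd f z + pd g z := by
  ext j
  exact dz_add' j hf hg

theorem pd_smul {f : Cm n → ℝ} {z : Cm n} (c : ℝ) (hf : DifferentiableAt ℝ f z) :
    pd (fun y => c * f y) z = (c : ℂ) • pd f z := by
  ext j
  exact dz_smul' j c hf

end lin

section glob
variable {n q : ℕ} {Γ : Type} [Group Γ] {C : Coc n Γ}

/-- `ip_δ` on the test functions -/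
def ipB (h3 : V3Stmt) (P : PU C) (K : KM C) (θ : HF C q) (δ : ℝ) : tst C →ₗ[ℝ] tst C →ₗ[ℝ] ℝ :=
  LinearMap.mk₂ ℝ (fun f h => ip P K θ δ f h)
    (by
      intro f g h
      have h1 := Int_add h3 P K (fam_ip f.2 h.2 K θ δ) (fam_ip g.2 h.2 K θ δ)
      rw [ip, ip, ip, ← h1]
      refine Int_congr P K fun γ a z _ => ?_
      show dD K θ δ a z * (((f : Γ → C.I → Cm n → ℝ) γ a z + (g : Γ → C.I → Cm n → ℝ) γ a z) * _) = _
      ring)
    (by
      intro c f h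
      have h1 := Int_mul h3 P K (fam_ip f.2 h.2 K θ δ) c
      rw [ip, ip, smul_eq_mul, ← h1]
      refine Int_congr P K fun γ a z _ => ?_
      show dD K θ δ a z * ((c * (f : Γ → C.I → Cm n → ℝ) γ a z) * _) = _
      ring)
    (by
      intro f g h
      have h1 := Int_add h3 P K (fam_ip f.2 g.2 K θ δ) (fam_ip f.2 h.2 K θ δ)
      rw [ip, ip, ip, ← h1]
      refine Int_congr P K fun γ a z _ => ?_
      show dD K θ δ a z * (_ * ((g : Γ → C.I → Cm n → ℝ) γ a z + (h : Γ → C.I → Cm n → ℝ) γ a z)) = _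
      ring)
    (by
      intro c f h
      have h1 := Int_mul h3 P K (fam_ip f.2 h.2 K θ δ) c
      rw [ip, ip, smul_eq_mul, ← h1]
      refine Int_congr P K fun γ a z _ => ?_
      show dD K θ δ a z * (_ * (c * (h : Γ → C.I → Cm n → ℝ) γ a z)) = _
      ring)

/-- `en_δ` on the test functions -/
def enB (h3 : V3Stmt) (P : PU C) (K : KM C) (θ : HF C q) (δ : ℝ) : tst C →ₗ[ℝ] tst C →ₗ[ℝ] ℝ :=
  LinearMap.mk₂ ℝ (fun f h => en P K θ δ f h)
    (by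
      intro f g h
      have h1 := Int_add h3 P K (fam_vA f.2 h.2 K θ δ) (fam_vA g.2 h.2 K θ δ)
      rw [en, en, en, ← h1]
      refine Int_congr P K fun γ a z hz => ?_
      show qf _ (pd (fun y => (f : Γ → C.I → Cm n → ℝ) γ a y + (g : Γ → C.I → Cm n → ℝ) γ a y) z) _ = _
      rw [pd_add (diff f.2 γ a hz) (diff g.2 γ a hz), qf_add_left]
      rfl)
    (by
      intro c f h
      have h1 := Int_mul h3 P K (fam_vA f.2 h.2 K θ δ) c
      rw [en, en, smul_eq_mul, ← h1]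
      refine Int_congr P K fun γ a z hz => ?_
      show qf _ (pd (fun y => c * (f : Γ → C.I → Cm n → ℝ) γ a y) z) _ = _
      rw [pd_smul c (diff f.2 γ a hz), qf_smul_left]
      rfl)
    (by
      intro f g h
      have h1 := Int_add h3 P K (fam_vA f.2 g.2 K θ δ) (fam_vA f.2 h.2 K θ δ)
      rw [en, en, en, ← h1]
      refine Int_congr P K fun γ a z hz => ?_
      show qf _ _ (pd (fun y => (g : Γ → C.I → Cm n → ℝ) γ a y + (h : Γ → C.I → Cm n → ℝ) γ a y) z) = _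
      rw [pd_add (diff g.2 γ a hz) (diff h.2 γ a hz), qf_add_right]
      rfl)
    (by
      intro c f h
      have h1 := Int_mul h3 P K (fam_vA f.2 h.2 K θ δ) c
      rw [en, en, smul_eq_mul, ← h1]
      refine Int_congr P K fun γ a z hz => ?_
      show qf _ _ (pd (fun y => c * (h : Γ → C.I → Cm n → ℝ) γ a y) z) = _
      rw [pd_smul c (diff h.2 γ a hz), qf_smul_right]
      rfl)

theorem ipB_apply (h3 : V3Stmt) (P : PU C) (K : KM C) (θ : HF C q) (δ : ℝ) (f h : tst C) :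
    ipB h3 P K θ δ f h = ip P K θ δ f h := rfl

theorem enB_apply (h3 : V3Stmt) (P : PU C) (K : KM C) (θ : HF C q) (δ : ℝ) (f h : tst C) :
    enB h3 P K θ δ f h = en P K θ δ f h := rfl

/-- `H = δ⁻¹ (V_δ - V_0)` -/
def HB (h3 : V3Stmt) (P : PU C) (K : KM C) (θ : HF C q) (δ : ℝ) : tst C →ₗ[ℝ] tst C →ₗ[ℝ] ℝ :=
  δ⁻¹ • (enB h3 P K θ δ - enB h3 P K θ 0)

theorem HB_apply (h3 : V3Stmt) (P : PU C) (K : KM C) (θ : HF C q) (δ : ℝ) (f h : tst C) :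
    HB h3 P K θ δ f h = δ⁻¹ * (en P K θ δ f h - en P K θ 0 f h) := rfl

variable {P : PU C} {K : KM C} {θ : HF C q} {δ : ℝ}

theorem ip_symm (f h : Γ → C.I → Cm n → ℝ) : ip P K θ δ f h = ip P K θ δ h f :=
  Int_congr P K fun γ a z _ => by rw [mul_comm (f γ a z)]

theorem ip_nonneg (hA : A2Stmt) (h3 : V3Stmt) (hδ : 0 ≤ δ) {f : Γ → C.I → Cm n → ℝ}
    (hf : IsTst C f) : 0 ≤ ip P K θ δ f f :=
  Int_nonneg h3 P K (fam_ip hf hf K θ δ) fun _ a _ hz =>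
    mul_nonneg (dD_nonneg hA K θ hδ (V_sub_Ω C a hz)) (mul_self_nonneg _)

theorem en_symm (hA : A2Stmt) (hδ : 0 ≤ δ) (f h : Γ → C.I → Cm n → ℝ) :
    en P K θ δ f h = en P K θ δ h f :=
  Int_congr P K fun _ a _ hz =>
    qf_symm (hA.herm _ _ _ (w_pos K (V_sub_Ω C a hz)) hδ).isHermitian _ _

theorem en_nonneg (hA : A2Stmt) (h3 : V3Stmt) (hδ : 0 ≤ δ) {f : Γ → C.I → Cm n → ℝ}
    (hf : IsTst C f) : 0 ≤ en P K θ δ f f :=
  Int_nonneg h3 P K (fam_vA hf hf K θ δ) fun _ a _ hz =>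
    qf_nonneg (hA.herm _ _ _ (w_pos K (V_sub_Ω C a hz)) hδ) _

theorem Int_mono (h3 : V3Stmt) {G H : Γ → C.I → Cm n → ℝ} (hG : Fam C G) (hH : Fam C H)
    (h : ∀ γ a, ∀ z ∈ C.Ω a, G γ a z ≤ H γ a z) : Int P K G ≤ Int P K H :=
  h3.mono C P K G H hG hH fun γ a z hz => h γ a z (V_sub_Ω C a hz)

/-- `ip_0 ≤ ip_δ` -/
theorem ip_zero_le (hA : A2Stmt) (h3 : V3Stmt) (hδ : 0 ≤ δ) {f : Γ → C.I → Cm n → ℝ}
    (hf : IsTst C f) : ip P K θ 0 f f ≤ ip P K θ δ f f :=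
  Int_mono h3 (fam_ip hf hf K θ 0) (fam_ip hf hf K θ δ) fun _ a _ hz =>
    mul_le_mul_of_nonneg_right (hA.DD_nonneg _ _ _ (w_pos K hz) hδ).2.1 (mul_self_nonneg _)

/-- `en_0 + δ E^{(q-1)} ≤ en_δ` -/
theorem en_zero_le (hA : A2Stmt) (h3 : V3Stmt) (hδ : 0 ≤ δ) {f : Γ → C.I → Cm n → ℝ}
    (hf : IsTst C f) : en P K θ 0 f f + δ * Int P K (eA K θ f) ≤ en P K θ δ f f := by
  have h1 : en P K θ 0 f f + δ * Int P K (eA K θ f) =
      Int P K fun γ a z => vA K θ 0 f f γ a z + δ * eA K θ f γ a z := by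
    rw [Int_add h3 P K (fam_vA hf hf K θ 0) (fam_const_mul (fam_eA hA hf K θ) δ),
      Int_mul h3 P K (fam_eA hA hf K θ)]
    rfl
  rw [h1]
  exact Int_mono h3 (fam_add (fam_vA hf hf K θ 0) (fam_const_mul (fam_eA hA hf K θ) δ))
    (fam_vA hf hf K θ δ) fun γ a z hz => (hA.low _ _ _ (w_pos K hz) hδ _).2

theorem eA_nonneg (hA : A2Stmt) (f : Γ → C.I → Cm n → ℝ) (γ : Γ) {a : C.I} {z : Cm n}
    (hz : z ∈ C.Ω a) : 0 ≤ eA K θ f γ a z :=
  (hA.low _ _ 0 (w_pos K hz) le_rfl _).1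

theorem int_eA_nonneg (hA : A2Stmt) (h3 : V3Stmt) {f : Γ → C.I → Cm n → ℝ}
    (hf : IsTst C f) : 0 ≤ Int P K (eA K θ f) :=
  Int_nonneg h3 P K (fam_eA hA hf K θ) fun γ a _ hz => eA_nonneg hA f γ (V_sub_Ω C a hz)

theorem H_ge (hA : A2Stmt) (h3 : V3Stmt) (hδ : 0 < δ) (f : tst C) :
    Int P K (eA K θ f) ≤ HB h3 P K θ δ f f := by
  rw [HB_apply, ← div_eq_inv_mul, le_div_iff₀ hδ]
  have := en_zero_le (P := P) (K := K) (θ := θ) hA h3 hδ.le f.2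
  linarith

theorem H_nonneg (hA : A2Stmt) (h3 : V3Stmt) (hδ : 0 < δ) (f : tst C) :
    0 ≤ HB h3 P K θ δ f f := (int_eA_nonneg hA h3 f.2).trans (H_ge hA h3 hδ f)

theorem H_symm (hA : A2Stmt) (h3 : V3Stmt) (hδ : 0 < δ) (f h : tst C) :
    HB h3 P K θ δ f h = HB h3 P K θ δ h f := by
  rw [HB_apply, HB_apply, en_symm hA hδ.le, en_symm hA le_rfl (f : Γ → C.I → Cm n → ℝ)]

/-- the Laplacian of `w + δ⁻¹ θ θᴴ` on the test functions -/
def LB (h5 : V5Concl) (K : KM C) (θ : HF C q) (δ : ℝ) (hδ : 0 < δ) : tst C →ₗ[ℝ] tst C :=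
  lapF h5 (KW K θ δ hδ)

theorem LB_coe (h5 : V5Concl) (K : KM C) (θ : HF C q) (hδ : 0 < δ) (f : tst C) :
    ((LB h5 K θ δ hδ f : tst C) : Γ → C.I → Cm n → ℝ) = Lap (KW K θ δ hδ) f := rfl

theorem ip_L (hA : A2Stmt) (h3 : V3Stmt) (h5 : V5Concl) (hδ : 0 < δ) (f h : tst C) :
    ipB h3 P K θ δ (LB h5 K θ δ hδ f) h = -enB h3 P K θ δ f h := by
  rw [ipB_apply, enB_apply, ← ibp_pos hA h5 P f.2 h.2 hδ, ip, LB_coe]
  refine Int_congr P K fun γ a z hz => ?_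
  rw [← mul_assoc, lap_KW hA hδ _ γ (V_sub_Ω C a hz)]

theorem en_zero_L (hA : A2Stmt) (h5 : V5Concl) (P : PU C) (K : KM C) (θ : HF C q)
    (f h : tst C) : en P K θ 0 h f = -Int P K (fun γ a z => lA K θ 0 f γ a z *
      (h : Γ → C.I → Cm n → ℝ) γ a z) := by
  rw [ibp_zero hA h5 P K θ f.2 h.2, neg_neg, en_symm hA le_rfl]

/-- `D (ℓ - p)²` -/
def rA (K : KM C) (θ : HF C q) (δ : ℝ) (hδ : 0 < δ) (f : Γ → C.I → Cm n → ℝ) (γ : Γ)
    (a : C.I) (z : Cm n) : ℝ :=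
  dD K θ 0 a z * Lap (KW K θ δ hδ) f γ a z ^ 2 - 2 * (lA K θ 0 f γ a z * Lap (KW K θ δ hδ) f γ a z) +
    pA K θ f γ a z

/-- `δ⁻¹ (D_δ |x|² - D |P|²)` -/
def nA (K : KM C) (θ : HF C q) (δ : ℝ) (hδ : 0 < δ) (f : Γ → C.I → Cm n → ℝ) (γ : Γ)
    (a : C.I) (z : Cm n) : ℝ :=
  δ⁻¹ * (dD K θ δ a z * Hh (KW K θ δ hδ) f f γ a z - (pA K θ f γ a z - qA K θ 0 f γ a z))

theorem isTst_L (h5 : V5Concl) (hδ : 0 < δ) {f : Γ → C.I → Cm n → ℝ} (hf : IsTst C f) :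
    IsTst C (Lap (KW K θ δ hδ) f) := (h5.fam C (KW K θ δ hδ) f f hf hf).2.2.2.1

theorem fam_sq {G : Γ → C.I → Cm n → ℝ} (hG : Fam C G) : Fam C (fun γ a z => G γ a z ^ 2) := by
  simpa only [sq] using fam_sq_mul hG hG

theorem fam_rA (hA : A2Stmt) (h5 : V5Concl) (hδ : 0 < δ) {f : Γ → C.I → Cm n → ℝ}
    (hf : IsTst C f) : Fam C (rA K θ δ hδ f) := by
  have hL := H639.V.isTst_fam (isTst_L (K := K) (θ := θ) h5 hδ hf)
  exact fam_add (fam_sub (fam_base (fam_sq hL) (dD_cont K θ 0) fun _ _ _ hz => dD_inv K θ 0 hz)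
    (fam_const_mul (fam_sq_mul (fam_lA hf K θ 0) hL) 2)) (fam_pA hA hf K θ)

theorem fam_nA (hA : A2Stmt) (hδ : 0 < δ) {f : Γ → C.I → Cm n → ℝ}
    (hf : IsTst C f) : Fam C (nA K θ δ hδ f) :=
  fam_const_mul (fam_sub (fam_base (fam_hh hf (KW K θ δ hδ)) (dD_cont K θ δ) fun _ _ _ hz =>
    dD_inv K θ δ hz) (fam_sub (fam_pA hA hf K θ) (fam_qA hA hf K θ le_rfl))) _

/-- the scalar identities at a point -/
theorem pt_main (hA : A2Stmt) (hδ : 0 < δ) {f : Γ → C.I → Cm n → ℝ} (γ : Γ)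
    {a : C.I} {z : Cm n} (hz : z ∈ C.Ω a) :
    0 ≤ rA K θ δ hδ f γ a z ∧
    pA K θ f γ a z ≤ 2 * (dD K θ δ a z * Lap (KW K θ δ hδ) f γ a z ^ 2) + 2 * rA K θ δ hδ f γ a z ∧
    (rA K θ δ hδ f γ a z + δ * nA K θ δ hδ f γ a z) / 2 ≤
      dD K θ δ a z * Lap (KW K θ δ hδ) f γ a z ^ 2 - lA K θ 0 f γ a z * Lap (KW K θ δ hδ) f γ a z -
        qA K θ δ f γ a z / 2 + qA K θ 0 f γ a z / 2 := by
  have hD := hA.DD_nonneg (K.w a z) (θ.th a z) δ (w_pos K hz) hδ.le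
  have hD0 : 0 ≤ dD K θ 0 a z := hD.1
  have hD1 : dD K θ 0 a z ≤ dD K θ δ a z := hD.2.1
  set l := Lap (KW K θ δ hδ) f γ a z with hl
  set p := lA K θ 0 f γ a z with hp
  have hl2 : 0 ≤ l ^ 2 := sq_nonneg l
  have hr : 0 ≤ rA K θ δ hδ f γ a z := by
    rw [rA, pA, ← hl, ← hp]
    rcases hD0.eq_or_lt with h0 | h0
    · have h1 : p = 0 := by
        rw [hp, lA, hA.zero _ _ (w_pos K hz) h0.symm, tr1]
        simp
      rw [h1, ← h0]
      simp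
    · have : dD K θ 0 a z * l ^ 2 - 2 * (p * l) + p ^ 2 / dD K θ 0 a z =
          (dD K θ 0 a z * l - p) ^ 2 / dD K θ 0 a z := by
        field_simp
        ring
      rw [this]
      positivity
  refine ⟨hr, ?_, ?_⟩
  · have h1 : pA K θ f γ a z ≤ 2 * (dD K θ 0 a z * l ^ 2) + 2 * rA K θ δ hδ f γ a z := by
      rw [rA, pA, ← hl, ← hp]
      rcases hD0.eq_or_lt with h0 | h0
      · have h1 : p = 0 := by
          rw [hp, lA, hA.zero _ _ (w_pos K hz) h0.symm, tr1]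
          simp
        rw [h1, ← h0]
        simp
      · have : 2 * (dD K θ 0 a z * l ^ 2) + 2 * (dD K θ 0 a z * l ^ 2 - 2 * (p * l) +
            p ^ 2 / dD K θ 0 a z) - p ^ 2 / dD K θ 0 a z =
            (2 * dD K θ 0 a z * l - p) ^ 2 / dD K θ 0 a z := by
          field_simp
          ring
        have h2 : 0 ≤ (2 * dD K θ 0 a z * l - p) ^ 2 / dD K θ 0 a z := by positivity
        linarith
    have h2 : dD K θ 0 a z * l ^ 2 ≤ dD K θ δ a z * l ^ 2 := mul_le_mul_of_nonneg_right hD1 hl2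
    linarith
  · have h1 : qA K θ δ f γ a z = dD K θ δ a z * (l ^ 2 - Hh (KW K θ δ hδ) f f γ a z) :=
      (hh_KW hA hδ f γ hz).symm
    have h2 : δ * nA K θ δ hδ f γ a z = dD K θ δ a z * Hh (KW K θ δ hδ) f f γ a z -
        (pA K θ f γ a z - qA K θ 0 f γ a z) := by
      rw [nA, ← mul_assoc, mul_inv_cancel₀ hδ.ne', one_mul]
    have h3 : dD K θ 0 a z * l ^ 2 ≤ dD K θ δ a z * l ^ 2 := mul_le_mul_of_nonneg_right hD1 hl2
    rw [h1, h2, rA, ← hl, ← hp]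
    nlinarith

/-- **Dissipativity.** -/
theorem H_diss (hA : A2Stmt) (h3 : V3Stmt) (h5 : V5Concl) (hδ : 0 < δ) (f : tst C) :
    (Int P K (rA K θ δ hδ f) + δ * Int P K (nA K θ δ hδ f)) / 2 ≤
      δ * -HB h3 P K θ δ (LB h5 K θ δ hδ f) f := by
  set Lf : tst C := LB h5 K θ δ hδ f with hLf
  have hLf' : (Lf : Γ → C.I → Cm n → ℝ) = Lap (KW K θ δ hδ) f := rfl
  have hLt := Lf.2
  have e1 : en P K θ δ Lf f = -ip P K θ δ Lf Lf := by
    have h1 := ip_L (P := P) (K := K) (θ := θ) hA h3 h5 hδ f Lf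
    rw [ipB_apply, enB_apply, ← hLf] at h1
    rw [h1, neg_neg, en_symm hA hδ.le]
  have e2 : en P K θ 0 Lf f = -Int P K (fun γ a z => lA K θ 0 f γ a z *
      (Lf : Γ → C.I → Cm n → ℝ) γ a z) := en_zero_L hA h5 P K θ f Lf
  have e3 : δ * -HB h3 P K θ δ Lf f = ip P K θ δ Lf Lf -
      Int P K (fun γ a z => lA K θ 0 f γ a z * (Lf : Γ → C.I → Cm n → ℝ) γ a z) := by
    rw [HB_apply, e1, e2]
    field_simp
    ring
  have F1 : Fam C (fun γ a z => dD K θ δ a z * ((Lf : Γ → C.I → Cm n → ℝ) γ a z *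
      (Lf : Γ → C.I → Cm n → ℝ) γ a z)) := fam_ip hLt hLt K θ δ
  have F2 : Fam C (fun γ a z => lA K θ 0 f γ a z * (Lf : Γ → C.I → Cm n → ℝ) γ a z) :=
    fam_sq_mul (fam_lA f.2 K θ 0) (H639.V.isTst_fam hLt)
  have F3 : Fam C (qA K θ δ f) := fam_qA hA f.2 K θ hδ.le
  have F4 : Fam C (qA K θ 0 f) := fam_qA hA f.2 K θ le_rfl
  have F5 := fam_const_mul F3 (1 / 2)
  have F6 := fam_const_mul F4 (1 / 2)
  have e4 : ip P K θ δ Lf Lf - Int P K (fun γ a z => lA K θ 0 f γ a z *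
      (Lf : Γ → C.I → Cm n → ℝ) γ a z) =
      Int P K (fun γ a z => (dD K θ δ a z * ((Lf : Γ → C.I → Cm n → ℝ) γ a z *
        (Lf : Γ → C.I → Cm n → ℝ) γ a z) - lA K θ 0 f γ a z * (Lf : Γ → C.I → Cm n → ℝ) γ a z -
        1 / 2 * qA K θ δ f γ a z) + 1 / 2 * qA K θ 0 f γ a z) := by
    rw [Int_add h3 P K (fam_sub (fam_sub F1 F2) F5) F6, Int_sub h3 P K (fam_sub F1 F2) F5,
      Int_sub h3 P K F1 F2, Int_mul h3 P K F3, Int_mul h3 P K F4,
      kahler_pos hA h3 h5 P f.2 hδ, kahler_zero hA h3 h5 P K θ f.2]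
    rw [ip]
    ring
  have F7 : Fam C (rA K θ δ hδ f) := fam_rA hA h5 hδ f.2
  have F8 : Fam C (nA K θ δ hδ f) := fam_nA hA hδ f.2
  have e5 : (Int P K (rA K θ δ hδ f) + δ * Int P K (nA K θ δ hδ f)) / 2 =
      Int P K (fun γ a z => 1 / 2 * (rA K θ δ hδ f γ a z + δ * nA K θ δ hδ f γ a z)) := by
    rw [Int_mul h3 P K (fam_add F7 (fam_const_mul F8 δ)),
      Int_add h3 P K F7 (fam_const_mul F8 δ), Int_mul h3 P K F8]
    ring
  rw [e3, e4, e5]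
  refine Int_mono h3 (fam_const_mul (fam_add F7 (fam_const_mul F8 δ)) _)
    (fam_add (fam_sub (fam_sub F1 F2) F5) F6) fun γ a z hz => ?_
  have h1 := (pt_main (K := K) (θ := θ) hA hδ (f := (f : Γ → C.I → Cm n → ℝ)) γ hz).2.2
  rw [hLf']
  rw [← sq]
  linarith

end glob

end Vale.Agent.P284.H402.A
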