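import Vale.Agent.P284.H402.A.Met
import Vale.Agent.P284.H913.V3
import Mathlib.Topology.Instances.Matrix

/-!
# P284 (A''), helper402: integration by parts and the Kähler identity for `δ > 0` and `δ = 0`
-/

open scoped Manifold ContDiff Topology Pointwise ComplexConjugate ComplexOrder Matrix
open Filter Set Metric MeasureTheory

noncomputable section

namespace Vale.Agent.P284.H402.A

open Vale.Agent.P272.K Vale.Agent.P272.K.C2 Vale.Agent.P284.H248 Vale.Agent.P284.H894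
  Vale.Agent.P284.H894.G Vale.Agent.P284.H894.V

/-! ### Continuity in `δ` -/

section cont
variable {n q : ℕ} (w : Matrix (Fin n) (Fin n) ℂ) (θ : Matrix (Fin n) (Fin q) ℂ)

theorem cont_TT : Continuous fun δ : ℝ => TT w θ δ := by
  unfold TT
  exact (Complex.continuous_ofReal.smul continuous_const).add continuous_const

theorem cont_DD : Continuous fun δ : ℝ => DD w θ δ :=
  Complex.continuous_re.comp (cont_TT w θ).matrix_det

theorem cont_AA : Continuous fun δ : ℝ => AA w θ δ := by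
  unfold AA
  refine ((cont_TT w θ).matrix_det.smul continuous_const).sub ?_
  exact (((continuous_const.matrix_mul (cont_TT w θ).matrix_adjugate).matrix_mul
    continuous_const).matrix_mul continuous_const)

theorem cont_qf {A : ℝ → Matrix (Fin n) (Fin n) ℂ} (hA : Continuous A) (α β : Fin n → ℂ) :
    Continuous fun δ => qf (A δ) α β := by
  unfold qf
  exact Complex.continuous_re.comp (continuous_const.dotProduct (hA.matrix_mulVec continuous_const))

theorem cont_tr1 {A : ℝ → Matrix (Fin n) (Fin n) ℂ} (hA : Continuous A)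
    (x : Matrix (Fin n) (Fin n) ℂ) : Continuous fun δ => tr1 (A δ) x := by
  unfold tr1
  exact Complex.continuous_re.comp (hA.matrix_mul continuous_const).matrix_trace

theorem cont_tr2 {A B : ℝ → Matrix (Fin n) (Fin n) ℂ} (hA : Continuous A) (hB : Continuous B)
    (x : Matrix (Fin n) (Fin n) ℂ) : Continuous fun δ => tr2 (A δ) (B δ) x := by
  unfold tr2
  exact Complex.continuous_re.comp ((hA.matrix_mul continuous_const).matrix_mul
    (hB.matrix_mul continuous_const)).matrix_trace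

end cont

/-! ### Pointwise bounds -/

section pt
variable {n q : ℕ} {w : Matrix (Fin n) (Fin n) ℂ} {θ : Matrix (Fin n) (Fin q) ℂ} {δ : ℝ}
  {x : Matrix (Fin n) (Fin n) ℂ}

theorem num_abs (hA : A2Stmt) (hw : w.PosDef) (hδ : 0 ≤ δ) (hx : x.IsHermitian) :
    |tr1 (AA w θ δ) x ^ 2 - tr2 (AA w θ δ) (AA w θ δ) x| ≤
      (n + 1) * DD w θ δ ^ 2 * tr2 w⁻¹ w⁻¹ x := by
  obtain ⟨-, h2, h3, -, h5⟩ := hA.tr_nonneg w θ δ x hw hδ hx
  have hn : (0 : ℝ) ≤ n := Nat.cast_nonneg n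
  have h6 : |tr1 (AA w θ δ) x ^ 2 - tr2 (AA w θ δ) (AA w θ δ) x| ≤
      (n + 1) * tr2 (AA w θ δ) (AA w θ δ) x := by
    rw [abs_le]
    constructor
    · nlinarith [sq_nonneg (tr1 (AA w θ δ) x), mul_nonneg hn h2]
    · nlinarith [mul_nonneg hn h2]
  refine h6.trans ?_
  calc (n + 1 : ℝ) * tr2 (AA w θ δ) (AA w θ δ) x ≤
      (n + 1) * (DD w θ δ ^ 2 * tr2 w⁻¹ w⁻¹ x) := mul_le_mul_of_nonneg_left h3 (by linarith)
    _ = _ := by ring

theorem QQ_abs (hA : A2Stmt) (hw : w.PosDef) (hδ : 0 ≤ δ) (hx : x.IsHermitian) :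
    |QQ w θ δ x| ≤ (n + 1) * DD w θ δ * tr2 w⁻¹ w⁻¹ x := by
  have hD : 0 ≤ DD w θ δ := (hA.DD_nonneg w θ δ hw hδ).1.trans (hA.DD_nonneg w θ δ hw hδ).2.1
  rcases hD.eq_or_lt with h0 | h0
  · rw [QQ, ← h0]; simp
  · rw [QQ, abs_div, abs_of_pos h0, div_le_iff₀ h0]
    calc _ ≤ _ := num_abs hA hw hδ hx
      _ = _ := by ring

theorem lA_sq (hA : A2Stmt) (hw : w.PosDef) (hδ : 0 ≤ δ) (hx : x.IsHermitian) :
    tr1 (AA w θ δ) x ^ 2 ≤ n * (DD w θ δ ^ 2 * tr2 w⁻¹ w⁻¹ x) := by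
  obtain ⟨-, h2, h3, -, h5⟩ := hA.tr_nonneg w θ δ x hw hδ hx
  exact h5.trans (mul_le_mul_of_nonneg_left h3 (Nat.cast_nonneg n))

theorem tr2_ww_nonneg (hw : w.PosDef) (hx : x.IsHermitian) : 0 ≤ tr2 w⁻¹ w⁻¹ x :=
  H730.V.hh_nonneg' hw hx

/-- a quotient `g / D` with `|g| ≤ c D² t` is continuous -/
theorem cont_quot {X : Type*} [TopologicalSpace X] {g D t : X → ℝ} {s : Set X} {c : ℝ}
    (hg : ContinuousOn g s) (hD : ContinuousOn D s) (ht : ContinuousOn t s)
    (h0 : ∀ z ∈ s, 0 ≤ D z) (hb : ∀ z ∈ s, |g z| ≤ c * D z ^ 2 * t z) :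
    ContinuousOn (fun z => g z / D z) s := by
  intro z hz
  rcases (h0 z hz).eq_or_lt with h1 | h1
  · have h2 : g z / D z = 0 := by rw [← h1, div_zero]
    have h3 : Tendsto (fun y => c * D y * t y) (𝓝[s] z) (𝓝 0) := by
      have h := (((continuousWithinAt_const (b := c)).mul (hD z hz)).mul (ht z hz)).tendsto
      have e : c * D z * t z = 0 := by rw [← h1]; ring
      rw [← e]
      exact h
    have h4 : ∀ᶠ y in 𝓝[s] z, |g y / D y| ≤ c * D y * t y := by
      filter_upwards [self_mem_nhdsWithin] with y hy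
      rcases (h0 y hy).eq_or_lt with h5 | h5
      · rw [← h5]; simp
      · rw [abs_div, abs_of_pos h5, div_le_iff₀ h5]
        calc |g y| ≤ c * D y ^ 2 * t y := hb y hy
          _ = _ := by ring
    have h6 : Tendsto (fun y => g y / D y) (𝓝[s] z) (𝓝 0) :=
      squeeze_zero_norm' (by simpa only [Real.norm_eq_abs] using h4) h3
    rw [ContinuousWithinAt, h2]
    exact h6
  · exact (hg z hz).div (hD z hz) h1.ne'

theorem tendsto_QQ (hA : A2Stmt) (hw : w.PosDef) (hx : x.IsHermitian) {d : ℕ → ℝ}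
    (hd : ∀ k, 0 ≤ d k) (hlim : Tendsto d atTop (𝓝 0)) :
    Tendsto (fun k => QQ w θ (d k) x) atTop (𝓝 (QQ w θ 0 x)) := by
  have c1 : Tendsto (fun k => DD w θ (d k)) atTop (𝓝 (DD w θ 0)) :=
    ((cont_DD w θ).tendsto 0).comp hlim
  rcases (hA.DD_nonneg w θ 0 hw le_rfl).1.eq_or_lt with h1 | h1
  · have h2 : QQ w θ 0 x = 0 := by rw [QQ, ← h1, div_zero]
    rw [h2]
    refine squeeze_zero_norm (a := fun k => (n + 1) * DD w θ (d k) * tr2 w⁻¹ w⁻¹ x) (fun k => ?_) ?_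
    · rw [Real.norm_eq_abs]
      exact QQ_abs hA hw (hd k) hx
    · have := (c1.const_mul ((n : ℝ) + 1)).mul_const (tr2 w⁻¹ w⁻¹ x)
      simpa [← h1] using this
  · unfold QQ
    refine Tendsto.div (Tendsto.sub (Tendsto.pow ?_ 2) ?_) c1 h1.ne'
    · exact ((cont_tr1 (cont_AA w θ) x).tendsto 0).comp hlim
    · exact ((cont_tr2 (cont_AA w θ) (cont_AA w θ) x).tendsto 0).comp hlim

theorem qf_smul (c : ℝ) (A : Matrix (Fin n) (Fin n) ℂ) (α β : Fin n → ℂ) :
    qf ((c : ℂ) • A) α β = c * qf A α β := by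
  rw [qf, qf, Matrix.smul_mulVec, dotProduct_smul, smul_eq_mul, Complex.re_ofReal_mul]

theorem tr1_smul (c : ℝ) (A x : Matrix (Fin n) (Fin n) ℂ) : tr1 ((c : ℂ) • A) x = c * tr1 A x := by
  rw [tr1, tr1, Matrix.smul_mul, Matrix.trace_smul, smul_eq_mul, Complex.re_ofReal_mul]

theorem tr2_smul (c d : ℝ) (A B x : Matrix (Fin n) (Fin n) ℂ) :
    tr2 ((c : ℂ) • A) ((d : ℂ) • B) x = c * d * tr2 A B x := by
  rw [tr2, tr2, Matrix.smul_mul, Matrix.smul_mul, Matrix.smul_mul, Matrix.mul_smul, smul_smul,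
    Matrix.trace_smul, smul_eq_mul, ← Complex.ofReal_mul, Complex.re_ofReal_mul]

theorem qf_le (hA : x.PosSemidef) (α β : Fin n → ℂ) :
    |qf x α β| ≤ (qf x α α + qf x β β) / 2 := by
  have h1 := H730.V.S_nonneg hA (α + β)
  have h2 := H730.V.S_nonneg hA (α + ((-1 : ℝ) : ℂ) • β)
  simp only [H730.V.S_add_left, H730.V.S_add_right, H730.V.S_smul_left, H730.V.S_smul_right,
    Complex.add_re, Complex.re_ofReal_mul] at h1 h2
  have h3 := H730.V.S_re_symm (a := α) (b := β) hA.isHermitian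
  rw [qf_eq, qf_eq, qf_eq, abs_le]
  constructor <;> linarith

end pt

/-! ### Families -/

section glob
variable {n q : ℕ} {Γ : Type} [Group Γ] {C : Coc n Γ} {P : PU C} {K : KM C} {θ : HF C q}
  {f h : Γ → C.I → Cm n → ℝ} {δ : ℝ}

theorem herm_f (hf : IsTst C f) (γ : Γ) {a : C.I} {z : Cm n} (hz : z ∈ C.Ω a) :
    (cHess (f γ a) z).IsHermitian :=
  C2.cHess_isHermitian ((hf.smooth γ a z hz).of_le H639.V.two_le)

/-- the Kähler density -/
def qA {C : Coc n Γ} (K : KM C) (θ : HF C q) (δ : ℝ) (f : Γ → C.I → Cm n → ℝ) (γ : Γ) (a : C.I)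
    (z : Cm n) : ℝ := QQ (K.w a z) (θ.th a z) δ (cHess (f γ a) z)

theorem hh_eq (K : KM C) (f : Γ → C.I → Cm n → ℝ) (γ : Γ) (a : C.I) (z : Cm n) :
    Hh K f f γ a z = tr2 (K.w a z)⁻¹ (K.w a z)⁻¹ (cHess (f γ a) z) := rfl

theorem fam_hh (hf : IsTst C f) (K : KM C) : Fam C (Hh K f f) :=
  H639.V.fam_Hh H730.V.vpStmt K hf hf

theorem cont_lA (hf : IsTst C f) (K : KM C) (θ : HF C q) (δ : ℝ) (γ : Γ) (a : C.I) :
    ContinuousOn (lA K θ δ f γ a) (C.Ω a) :=
  fun _ hz => (smooth_lA hf K θ δ γ hz).continuousAt.continuousWithinAt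

theorem dD_nonneg (hA : A2Stmt) (K : KM C) (θ : HF C q) (hδ : 0 ≤ δ) {a : C.I} {z : Cm n}
    (hz : z ∈ C.Ω a) : 0 ≤ dD K θ δ a z := by
  have := hA.DD_nonneg (K.w a z) (θ.th a z) δ (w_pos K hz) hδ
  exact this.1.trans this.2.1

theorem fam_qA (hA : A2Stmt) (hf : IsTst C f) (K : KM C) (θ : HF C q) (hδ : 0 ≤ δ) :
    Fam C (qA K θ δ f) := by
  refine fam_mk hf (fun γ a => ?_) (fun γ a b z hz => ?_) fun γ a z _ e => ?_
  · refine cont_quot (c := n + 1) (t := Hh K f f γ a) ?_ (dD_cont K θ δ a)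
      ((fam_hh hf K).cont γ a) (fun z hz => dD_nonneg hA K θ hδ hz) fun z hz => ?_
    · exact ((cont_lA hf K θ δ γ a).pow 2).sub fun z hz =>
        (smooth_tr2 (mc_AA (w_mc K hz) (w_det K hz) (th_mc θ hz) δ)
          (mc_AA (w_mc K hz) (w_det K hz) (th_mc θ hz) δ)
          (hf.smooth γ a z hz)).continuousAt.continuousWithinAt
    · exact num_abs (θ := θ.th a z) hA (w_pos K hz) hδ (herm_f hf γ hz)
  · simp only [qA]
    rw [cHess_law hf γ hz]
    exact QQ_inv (inv_K K hz) (θ.change a b z hz) δ _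
  · simp [qA, QQ, tr1, tr2, cHess_zero' e]

theorem fam_pA (hA : A2Stmt) (hf : IsTst C f) (K : KM C) (θ : HF C q) : Fam C (pA K θ f) := by
  refine fam_mk hf (fun γ a => ?_) (fun γ a b z hz => ?_) fun γ a z _ e => ?_
  · refine cont_quot (c := n) (t := Hh K f f γ a) ((cont_lA hf K θ 0 γ a).pow 2) (dD_cont K θ 0 a)
      ((fam_hh hf K).cont γ a) (fun z hz => dD_nonneg hA K θ le_rfl hz) fun z hz => ?_
    have h0 : 0 ≤ lA K θ 0 f γ a z ^ 2 := sq_nonneg _
    show |lA K θ 0 f γ a z ^ 2| ≤ _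
    rw [abs_of_nonneg h0]
    have := lA_sq (θ := θ.th a z) hA (w_pos K hz) le_rfl (herm_f hf γ hz)
    calc lA K θ 0 f γ a z ^ 2 ≤ _ := this
      _ = n * dD K θ 0 a z ^ 2 * Hh K f f γ a z := by rw [hh_eq, dD]; ring
  · simp only [pA]
    rw [lA_inv hf K θ 0 γ hz, dD_inv K θ 0 hz]
  · simp only [pA]
    rw [lA_zero e]
    simp

/-- dominated convergence -/
theorem Int_tendsto (P : PU C) (K : KM C) {G : ℕ → Γ → C.I → Cm n → ℝ}
    {G' B : Γ → C.I → Cm n → ℝ} (hG : ∀ k, Fam C (G k)) (hB : Fam C B)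
    (hle : ∀ k γ a, ∀ z ∈ C.V a, |G k γ a z| ≤ B γ a z)
    (hlim : ∀ γ a, ∀ z ∈ C.V a, Tendsto (fun k => G k γ a z) atTop (𝓝 (G' γ a z))) :
    Tendsto (fun k => Int P K (G k)) atTop (𝓝 (Int P K G')) := by
  have hz0 : ∀ γ ∉ H913.V.fs hB, ∀ a, ∀ z ∈ C.V a, ∀ k, G k γ a z = 0 := by
    intro γ hγ a z hz k
    have h1 := hle k γ a z hz
    rw [H913.V.fs_out hB hγ hz] at h1
    exact abs_nonpos_iff.1 h1
  have hz1 : ∀ γ ∉ H913.V.fs hB, ∀ a, ∀ z ∈ C.V a, G' γ a z = 0 := by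
    intro γ hγ a z hz
    have h1 := hlim γ a z hz
    have h2 : (fun k => G k γ a z) = fun _ => 0 := funext fun k => hz0 γ hγ a z hz k
    rw [h2] at h1
    exact (tendsto_nhds_unique h1 tendsto_const_nhds)
  have e : ∀ {H : Γ → C.I → Cm n → ℝ}, (∀ γ ∉ H913.V.fs hB, ∀ a, ∀ z ∈ C.V a, H γ a z = 0) →
      Int P K H = ∑ γ ∈ H913.V.fs hB, ∑ a, ∫ z in C.V a, P.χ a a z * H γ a z * vol (K.w a) z := by
    intro H hH
    rw [Vale.Agent.P284.H894.V.Int]
    refine tsum_eq_sum fun γ hγ => Finset.sum_eq_zero fun a _ => ?_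
    rw [setIntegral_congr_fun (H913.V.isOpen_V C a).measurableSet (g := fun _ => (0 : ℝ)),
      integral_zero]
    intro z hz
    simp only [hH γ hγ a z hz, mul_zero, zero_mul]
  rw [e hz1]
  have e2 : (fun k => Int P K (G k)) = fun k => ∑ γ ∈ H913.V.fs hB, ∑ a, ∫ z in C.V a,
      P.χ a a z * G k γ a z * vol (K.w a) z :=
    funext fun k => e fun γ hγ a z hz => hz0 γ hγ a z hz k
  rw [e2]
  refine tendsto_finsetSum _ fun γ _ => tendsto_finsetSum _ fun a _ => ?_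
  have hV : MeasurableSet (C.V a) := (H913.V.isOpen_V C a).measurableSet
  refine tendsto_integral_of_dominated_convergence
    (fun z => P.χ a a z * B γ a z * vol (K.w a) z) (fun k => ?_) ?_ (fun k => ?_) ?_
  · exact ((((H913.V.chi_cont P a a).mul ((hG k).cont γ a)).mul (H913.V.vol_cont K a)).mono
      (H913.V.V_sub C a)).aestronglyMeasurable hV
  · exact H913.V.intV (((H913.V.chi_cont P a a).mul (hB.cont γ a)).mul (H913.V.vol_cont K a))
  · filter_upwards [ae_restrict_mem hV] with z hz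
    have h1 := P.nonneg a a z
    have h2 : 0 ≤ vol (K.w a) z := H913.V.vol_nn K (H913.V.V_sub C a hz)
    rw [Real.norm_eq_abs, abs_mul, abs_mul, abs_of_nonneg h1, abs_of_nonneg h2]
    exact mul_le_mul_of_nonneg_right (mul_le_mul_of_nonneg_left (hle k γ a z hz) h1) h2
  · filter_upwards [ae_restrict_mem hV] with z hz
    exact ((hlim γ a z hz).const_mul _).mul_const _

/-! ### The metric `KW` -/

theorem vol_KW (hδ : 0 < δ) {a : C.I} {z : Cm n} (hz : z ∈ C.Ω a) :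
    vol ((KW K θ δ hδ).w a) z = (δ ^ q)⁻¹ * dD K θ δ a z * vol (K.w a) z :=
  WW_det (w_pos K hz) _ hδ

theorem Int_KW (P : PU C) (hδ : 0 < δ) (G : Γ → C.I → Cm n → ℝ) :
    Int P (KW K θ δ hδ) G = (δ ^ q)⁻¹ * Int P K fun γ a z => dD K θ δ a z * G γ a z := by
  rw [Vale.Agent.P284.H894.V.Int, Vale.Agent.P284.H894.V.Int, ← tsum_mul_left]
  refine tsum_congr fun γ => ?_
  rw [Finset.mul_sum]
  refine Finset.sum_congr rfl fun a _ => ?_
  rw [← integral_const_mul]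
  refine setIntegral_congr_fun (H913.V.isOpen_V C a).measurableSet fun z hz => ?_
  simp only [vol_KW hδ (H913.V.V_sub C a hz)]
  ring

theorem Int_KW' (P : PU C) (hδ : 0 < δ) (G : Γ → C.I → Cm n → ℝ) :
    (Int P K fun γ a z => dD K θ δ a z * G γ a z) = δ ^ q * Int P (KW K θ δ hδ) G := by
  rw [Int_KW, ← mul_assoc, mul_inv_cancel₀ (pow_pos hδ q).ne', one_mul]

theorem gr_KW (hA : A2Stmt) (hδ : 0 < δ) (f h : Γ → C.I → Cm n → ℝ) (γ : Γ) {a : C.I} {z : Cm n}
    (hz : z ∈ C.Ω a) : dD K θ δ a z * Gr (KW K θ δ hδ) f h γ a z = vA K θ δ f h γ a z := by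
  rw [Gr, H730.V.gr_eq, vA, hA.inv_WW _ _ _ (w_pos K hz) hδ, qf_smul, qf_eq]
  rfl

theorem lap_KW (hA : A2Stmt) (hδ : 0 < δ) (f : Γ → C.I → Cm n → ℝ) (γ : Γ) {a : C.I} {z : Cm n}
    (hz : z ∈ C.Ω a) : dD K θ δ a z * Lap (KW K θ δ hδ) f γ a z = lA K θ δ f γ a z := by
  rw [H639.V.Lap_mem (KW K θ δ hδ) γ hz, lA, hA.inv_WW _ _ _ (w_pos K hz) hδ, tr1_smul]
  rfl

theorem hh_KW (hA : A2Stmt) (hδ : 0 < δ) (f : Γ → C.I → Cm n → ℝ) (γ : Γ) {a : C.I} {z : Cm n}
    (hz : z ∈ C.Ω a) : dD K θ δ a z * (Lap (KW K θ δ hδ) f γ a z ^ 2 - Hh (KW K θ δ hδ) f f γ a z) =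
      qA K θ δ f γ a z := by
  have hD : dD K θ δ a z ≠ 0 := ((hA.DD_nonneg (K.w a z) (θ.th a z) δ (w_pos K hz) hδ.le).2.2 hδ).ne'
  have e1 : tr1 (AA (K.w a z) (θ.th a z) δ) (cHess (f γ a) z) =
      dD K θ δ a z * Lap (KW K θ δ hδ) f γ a z := (lap_KW hA hδ f γ hz).symm
  have e2 : tr2 (AA (K.w a z) (θ.th a z) δ) (AA (K.w a z) (θ.th a z) δ) (cHess (f γ a) z) =
      dD K θ δ a z ^ 2 * Hh (KW K θ δ hδ) f f γ a z := by
    rw [hA.inv_WW _ _ _ (w_pos K hz) hδ, tr2_smul, sq]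
    rfl
  rw [qA, QQ, e1, e2]
  have : DD (K.w a z) (θ.th a z) δ = dD K θ δ a z := rfl
  rw [this]
  field_simp

/-- Integration by parts, `δ > 0`. -/
theorem ibp_pos (hA : A2Stmt) (h5 : V5Concl) (P : PU C) (hf : IsTst C f) (hh' : IsTst C h)
    (hδ : 0 < δ) : Int P K (fun γ a z => lA K θ δ f γ a z * h γ a z) = -en P K θ δ f h := by
  have h1 := h5.ibp C P (KW K θ δ hδ) f h hf hh'
  rw [Int_KW, Int_KW, ← mul_neg] at h1
  have h2 := mul_left_cancel₀ (inv_ne_zero (pow_pos hδ q).ne') h1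
  have e1 : (Int P K fun γ a z => dD K θ δ a z * (Lap (KW K θ δ hδ) f γ a z * h γ a z)) =
      Int P K fun γ a z => lA K θ δ f γ a z * h γ a z := by
    refine H639.V.Int_congr P K fun γ a z hz => ?_
    rw [← mul_assoc, lap_KW hA hδ f γ (H639.V.V_sub_Ω C a hz)]
  have e2 : (Int P K fun γ a z => dD K θ δ a z * Gr (KW K θ δ hδ) f h γ a z) =
      en P K θ δ f h :=
    H639.V.Int_congr P K fun γ a z hz => gr_KW hA hδ f h γ (H639.V.V_sub_Ω C a hz)
  rw [e1, e2] at h2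
  exact h2

theorem fam_sub {G H : Γ → C.I → Cm n → ℝ} (hG : Fam C G) (hH : Fam C H) :
    Fam C (fun γ a z => G γ a z - H γ a z) := by
  have := H639.V.fam_lin hG hH 1 (-1)
  simpa only [one_mul, neg_one_mul, ← sub_eq_add_neg] using this

theorem Int_sub (h3 : V3Stmt) (P : PU C) (K : KM C) {G H : Γ → C.I → Cm n → ℝ} (hG : Fam C G)
    (hH : Fam C H) : Int P K (fun γ a z => G γ a z - H γ a z) = Int P K G - Int P K H := by
  have := h3.lin C P K G H 1 (-1) hG hH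
  simpa only [one_mul, neg_one_mul, ← sub_eq_add_neg] using this

/-- The Kähler identity, `δ > 0`. -/
theorem kahler_pos (hA : A2Stmt) (h3 : V3Stmt) (h5 : V5Concl) (P : PU C) (hf : IsTst C f)
    (hδ : 0 < δ) : Int P K (qA K θ δ f) = 0 := by
  have h1 := h5.kahler C P (KW K θ δ hδ) f f hf hf
  have hL := (h5.fam C (KW K θ δ hδ) f f hf hf).2.2.2.1
  have hLL := (h5.fam C (KW K θ δ hδ) _ _ hL hL).1
  have hH := (h5.fam C (KW K θ δ hδ) f f hf hf).2.2.1
  have h2 : Int P (KW K θ δ hδ) (fun γ a z => Lap (KW K θ δ hδ) f γ a z *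
      Lap (KW K θ δ hδ) f γ a z - Hh (KW K θ δ hδ) f f γ a z) = 0 := by
    rw [Int_sub h3 P _ hLL hH, h1, sub_self]
  rw [Int_KW] at h2
  have h4 := (mul_eq_zero.1 h2).resolve_left (inv_ne_zero (pow_pos hδ q).ne')
  rw [← h4]
  refine H639.V.Int_congr P K fun γ a z hz => ?_
  rw [← hh_KW hA hδ f γ (H639.V.V_sub_Ω C a hz), sq]

/-! ### The limit `δ → 0` -/

/-- the sequence `1/(k+1)` -/
def dk (k : ℕ) : ℝ := 1 / ((k : ℝ) + 1)

theorem dk_pos (k : ℕ) : 0 < dk k := Nat.one_div_pos_of_nat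
theorem dk_le (k : ℕ) : dk k ≤ 1 := by
  rw [dk, div_le_one (by positivity)]
  have : (0 : ℝ) ≤ k := Nat.cast_nonneg k
  linarith
theorem dk_lim : Tendsto dk atTop (𝓝 0) := tendsto_one_div_add_atTop_nhds_zero_nat

theorem fam_const_mul {G : Γ → C.I → Cm n → ℝ} (hG : Fam C G) (r : ℝ) :
    Fam C (fun γ a z => r * G γ a z) := by
  have := H639.V.fam_lin hG hG r 0
  simpa only [zero_mul, add_zero] using this

theorem fam_add {G H : Γ → C.I → Cm n → ℝ} (hG : Fam C G) (hH : Fam C H) :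
    Fam C (fun γ a z => G γ a z + H γ a z) := by
  have := H639.V.fam_lin hG hH 1 1
  simpa only [one_mul] using this

theorem Int_add (h3 : V3Stmt) (P : PU C) (K : KM C) {G H : Γ → C.I → Cm n → ℝ} (hG : Fam C G)
    (hH : Fam C H) : Int P K (fun γ a z => G γ a z + H γ a z) = Int P K G + Int P K H := by
  have := h3.lin C P K G H 1 1 hG hH
  simpa only [one_mul] using this

theorem Int_mul (h3 : V3Stmt) (P : PU C) (K : KM C) {G : Γ → C.I → Cm n → ℝ} (hG : Fam C G)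
    (r : ℝ) : Int P K (fun γ a z => r * G γ a z) = r * Int P K G := by
  have := h3.lin C P K G G r 0 hG hG
  simpa only [zero_mul, add_zero] using this

theorem fam_sq_mul {G H : Γ → C.I → Cm n → ℝ} (hG : Fam C G) (hH : Fam C H) :
    Fam C (fun γ a z => G γ a z * H γ a z) where
  cont γ a := (hG.cont γ a).mul (hH.cont γ a)
  compat γ a b z hz := by rw [hG.compat γ a b z hz, hH.compat γ a b z hz]
  fin := by
    refine hG.fin.subset ?_
    rintro γ ⟨a, z, hz, hne⟩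
    exact ⟨a, z, hz, fun h0 => hne (by rw [h0, zero_mul])⟩

/-- Integration by parts, `δ = 0`. -/
theorem ibp_zero (hA : A2Stmt) (h5 : V5Concl) (P : PU C) (K : KM C) (θ : HF C q) (hf : IsTst C f)
    (hh' : IsTst C h) :
    Int P K (fun γ a z => lA K θ 0 f γ a z * h γ a z) = -en P K θ 0 f h := by
  obtain ⟨c, hc, hup⟩ := hA.up q (Lam K θ)
  have t1 : Tendsto (fun k => Int P K fun γ a z => lA K θ (dk k) f γ a z * h γ a z) atTop
      (𝓝 (Int P K fun γ a z => lA K θ 0 f γ a z * h γ a z)) := by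
    refine Int_tendsto P K (B := fun γ a z => (n * c ^ 2) * Hh K f f γ a z + h γ a z * h γ a z)
      (fun k => fam_sq_mul (fam_lA hf K θ _) (H639.V.isTst_fam hh'))
      (fam_add (fam_const_mul (fam_hh hf K) _) (H639.V.isTst_fam (H639.V.isTst_mul hh' hh')))
      (fun k γ a z hz => ?_) fun γ a z hz => ?_
    · have hz' := H639.V.V_sub_Ω C a hz
      have h1 := lA_sq (θ := θ.th a z) hA (w_pos K hz') (dk_pos k).le (herm_f hf γ hz')
      have h2 := (hup (K.w a z) (θ.th a z) (dk k) (w_pos K hz') (dk_pos k).le (dk_le k)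
        (gram_K K θ hz')).1
      have h3 := (hA.DD_nonneg (K.w a z) (θ.th a z) (dk k) (w_pos K hz') (dk_pos k).le)
      have h4 : 0 ≤ DD (K.w a z) (θ.th a z) (dk k) := h3.1.trans h3.2.1
      have h5 : 0 ≤ Hh K f f γ a z := tr2_ww_nonneg (w_pos K hz') (herm_f hf γ hz')
      have h6 : lA K θ (dk k) f γ a z ^ 2 ≤ n * c ^ 2 * Hh K f f γ a z := by
        calc _ ≤ _ := h1
          _ ≤ n * (c ^ 2 * Hh K f f γ a z) := by
            refine mul_le_mul_of_nonneg_left ?_ (Nat.cast_nonneg n)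
            exact mul_le_mul_of_nonneg_right (pow_le_pow_left₀ h4 h2 2) h5
          _ = _ := by ring
      rw [abs_le]
      constructor <;> nlinarith [sq_nonneg (lA K θ (dk k) f γ a z + h γ a z),
        sq_nonneg (lA K θ (dk k) f γ a z - h γ a z), sq_nonneg (lA K θ (dk k) f γ a z),
        sq_nonneg (h γ a z)]
    · exact (((cont_tr1 (cont_AA (K.w a z) (θ.th a z)) (cHess (f γ a) z)).tendsto 0).comp
        dk_lim).mul_const _
  have t2 : Tendsto (fun k => -en P K θ (dk k) f h) atTop (𝓝 (-en P K θ 0 f h)) := by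
    refine Tendsto.neg ?_
    refine Int_tendsto P K (B := fun γ a z => c * (Gr K f f γ a z + Gr K h h γ a z))
      (fun k => fam_vA hf hh' K θ _)
      (fam_const_mul (fam_add (H639.V.fam_Gr H730.V.vpStmt K hf hf)
        (H639.V.fam_Gr H730.V.vpStmt K hh' hh')) _)
      (fun k γ a z hz => ?_) fun γ a z hz => ?_
    · have hz' := H639.V.V_sub_Ω C a hz
      have h1 := qf_le (hA.herm (K.w a z) (θ.th a z) (dk k) (w_pos K hz') (dk_pos k).le)
        (pd (f γ a) z) (pd (h γ a) z)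
      have h2 := (hup (K.w a z) (θ.th a z) (dk k) (w_pos K hz') (dk_pos k).le (dk_le k)
        (gram_K K θ hz')).2.2
      have h3 := (h2 (pd (f γ a) z)).1
      have h4 := (h2 (pd (h γ a) z)).1
      have e1 : Gr K f f γ a z = qf (K.w a z)⁻¹ (pd (f γ a) z) (pd (f γ a) z) := by
        rw [Gr, H730.V.gr_eq, qf_eq]; rfl
      have e2 : Gr K h h γ a z = qf (K.w a z)⁻¹ (pd (h γ a) z) (pd (h γ a) z) := by
        rw [Gr, H730.V.gr_eq, qf_eq]; rfl
      have h5 : 0 ≤ Gr K f f γ a z := (H730.V.vp_nonneg _ _ _ (w_pos K hz')).1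
      have h6 : 0 ≤ Gr K h h γ a z := (H730.V.vp_nonneg _ _ _ (w_pos K hz')).1
      refine h1.trans ?_
      rw [← e1] at h3
      rw [← e2] at h4
      nlinarith
    · exact ((cont_qf (cont_AA (K.w a z) (θ.th a z)) (pd (f γ a) z) (pd (h γ a) z)).tendsto 0).comp
        dk_lim
  refine tendsto_nhds_unique t1 (t2.congr fun k => (ibp_pos hA h5 P hf hh' (dk_pos k)).symm)

/-- The Kähler identity, `δ = 0`. -/
theorem kahler_zero (hA : A2Stmt) (h3 : V3Stmt) (h5 : V5Concl) (P : PU C) (K : KM C) (θ : HF C q)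
    (hf : IsTst C f) : Int P K (qA K θ 0 f) = 0 := by
  obtain ⟨c, hc, hup⟩ := hA.up q (Lam K θ)
  have t1 : Tendsto (fun k => Int P K (qA K θ (dk k) f)) atTop (𝓝 (Int P K (qA K θ 0 f))) := by
    refine Int_tendsto P K (B := fun γ a z => ((n + 1) * c) * Hh K f f γ a z)
      (fun k => fam_qA hA hf K θ (dk_pos k).le)
      (fam_const_mul (fam_hh hf K) _)
      (fun k γ a z hz => ?_) fun γ a z hz => ?_
    · have hz' := H639.V.V_sub_Ω C a hz
      have h2 := (hup (K.w a z) (θ.th a z) (dk k) (w_pos K hz') (dk_pos k).le (dk_le k)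
        (gram_K K θ hz')).1
      refine (QQ_abs (θ := θ.th a z) hA (w_pos K hz') (dk_pos k).le (herm_f hf γ hz')).trans ?_
      exact mul_le_mul_of_nonneg_right (mul_le_mul_of_nonneg_left h2 (by positivity))
        (tr2_ww_nonneg (w_pos K hz') (herm_f hf γ hz'))
    · have hz' := H639.V.V_sub_Ω C a hz
      exact tendsto_QQ hA (w_pos K hz') (herm_f hf γ hz') (fun k => (dk_pos k).le) dk_lim
  refine tendsto_nhds_unique t1 ?_
  have : (fun k => Int P K (qA K θ (dk k) f)) = fun _ => 0 :=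
    funext fun k => kahler_pos hA h3 h5 P hf (dk_pos k)
  rw [this]
  exact tendsto_const_nhds

end glob

end Vale.Agent.P284.H402.A
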