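import Vale.Agent.P284.H402.A.Alg
import Vale.Agent.P284.H894.V.V13

/-!
# P284 (A''), helper402: the metric `w + δ⁻¹ θ θᴴ`
-/

open scoped Manifold ContDiff Topology Pointwise ComplexConjugate ComplexOrder Matrix
open Filter Set Metric MeasureTheory

noncomputable section

namespace Vale.Agent.P284.H402.A

open Vale.Agent.P272.K Vale.Agent.P272.K.C2 Vale.Agent.P284.H248 Vale.Agent.P284.H894
  Vale.Agent.P284.H894.G Vale.Agent.P284.H894.V

section mat
variable {n q : ℕ}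

theorem qf_eq (A : Matrix (Fin n) (Fin n) ℂ) (α β : Fin n → ℂ) : qf A α β = (H730.V.S A α β).re := by
  rw [H730.V.S_eq]; rfl

/-- `αᴴ θ θᴴ α ≥ 0` and bound -/
theorem theta_form (θ : Matrix (Fin n) (Fin q) ℂ) (v : Fin n → ℂ) :
    (H730.V.S (θ * θᴴ) v v).re = ∑ i, ‖(θᴴ *ᵥ v) i‖ ^ 2 := by
  rw [H730.V.S_eq, ← Matrix.mulVec_mulVec, Matrix.dotProduct_mulVec]
  have h1 : star v ᵥ* θ = star (θᴴ *ᵥ v) := by
    rw [Matrix.star_mulVec, Matrix.conjTranspose_conjTranspose]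
  rw [h1, dotProduct, Complex.re_sum]
  refine Finset.sum_congr rfl fun j _ => ?_
  rw [Pi.star_apply, RCLike.star_def, mul_comm, Complex.mul_conj, Complex.normSq_eq_norm_sq,
    Complex.ofReal_re]

theorem theta_bound {B : ℝ} (θ : Matrix (Fin n) (Fin q) ℂ) (hB : ∀ i j, ‖θ i j‖ ≤ B)
    (v : Fin n → ℂ) : ∑ i, ‖(θᴴ *ᵥ v) i‖ ^ 2 ≤ (q * (n * B ^ 2)) * ∑ j, ‖v j‖ ^ 2 := by
  have h1 : ∀ i : Fin q, ‖(θᴴ *ᵥ v) i‖ ^ 2 ≤ (n * B ^ 2) * ∑ j, ‖v j‖ ^ 2 := by
    intro i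
    have h2 : ‖(θᴴ *ᵥ v) i‖ ≤ ∑ j, B * ‖v j‖ := by
      simp only [Matrix.mulVec, dotProduct]
      refine (norm_sum_le _ _).trans (Finset.sum_le_sum fun j _ => ?_)
      rw [norm_mul, Matrix.conjTranspose_apply, norm_star]
      exact mul_le_mul_of_nonneg_right (hB j i) (norm_nonneg _)
    have h3 : (∑ j, B * ‖v j‖) ^ 2 ≤ (n * B ^ 2) * ∑ j, ‖v j‖ ^ 2 := by
      have h4 := Finset.sum_mul_sq_le_sq_mul_sq (Finset.univ : Finset (Fin n)) (fun _ => B)
        (fun j => ‖v j‖)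
      simpa using h4
    calc ‖(θᴴ *ᵥ v) i‖ ^ 2 ≤ (∑ j, B * ‖v j‖) ^ 2 :=
          pow_le_pow_left₀ (norm_nonneg _) h2 2
      _ ≤ _ := h3
  calc ∑ i, ‖(θᴴ *ᵥ v) i‖ ^ 2 ≤ ∑ _i : Fin q, (n * B ^ 2) * ∑ j, ‖v j‖ ^ 2 :=
        Finset.sum_le_sum fun i _ => h1 i
    _ = _ := by rw [Finset.sum_const, Finset.card_univ, Fintype.card_fin, nsmul_eq_mul]; ring

theorem ww_form (w : Matrix (Fin n) (Fin n) ℂ) (θ : Matrix (Fin n) (Fin q) ℂ) (δ : ℝ)
    (v : Fin n → ℂ) : (∑ j, ∑ k, WW w θ δ j k * v j * conj (v k)).re =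
      (∑ j, ∑ k, w j k * v j * conj (v k)).re +
        δ⁻¹ * ∑ i, ‖(θᴴ *ᵥ (fun j => conj (v j))) i‖ ^ 2 := by
  rw [← theta_form, H730.V.form_eq (WW w θ δ), H730.V.form_eq w]
  unfold WW
  rw [H730.V.S_eq, H730.V.S_eq, H730.V.S_eq, Matrix.add_mulVec, Matrix.smul_mulVec,
    dotProduct_add, dotProduct_smul, Complex.add_re, smul_eq_mul, Complex.re_ofReal_mul]

/-- the Gram matrix is bounded -/
theorem gram_psd {w : Matrix (Fin n) (Fin n) ℂ} (hw : w.PosDef) {lam B : ℝ} (hl : 0 < lam)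
    (_hB0 : 0 ≤ B) (hlow : ∀ v : Fin n → ℂ, lam * (H730.V.S 1 v v).re ≤ (H730.V.S w v v).re)
    (θ : Matrix (Fin n) (Fin q) ℂ) (hB : ∀ i j, ‖θ i j‖ ≤ B) :
    (((lam⁻¹ * (n * (q * B ^ 2)) : ℝ) : ℂ) • (1 : Matrix (Fin q) (Fin q) ℂ) -
      θᴴ * w⁻¹ * θ).PosSemidef := by
  have hT : (θᴴ * w⁻¹ * θ).PosSemidef := hw.inv.posSemidef.conjTranspose_mul_mul_same θ
  have hH : (((lam⁻¹ * (n * (q * B ^ 2)) : ℝ) : ℂ) • (1 : Matrix (Fin q) (Fin q) ℂ) -
      θᴴ * w⁻¹ * θ).IsHermitian := by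
    refine Matrix.IsHermitian.sub ?_ hT.isHermitian
    rw [Matrix.IsHermitian, Matrix.conjTranspose_smul, Matrix.conjTranspose_one, RCLike.star_def,
      Complex.conj_ofReal]
  refine Matrix.PosSemidef.of_dotProduct_mulVec_nonneg hH fun a => ?_
  set c : ℝ := lam⁻¹ * (n * (q * B ^ 2)) with hc
  have e1 : (star a ⬝ᵥ ((((c : ℝ) : ℂ) • (1 : Matrix (Fin q) (Fin q) ℂ) - θᴴ * w⁻¹ * θ) *ᵥ a)) =
      (c : ℂ) * (star a ⬝ᵥ a) - star (θ *ᵥ a) ⬝ᵥ (w⁻¹ *ᵥ (θ *ᵥ a)) := by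
    rw [Matrix.sub_mulVec, Matrix.smul_mulVec, dotProduct_sub, dotProduct_smul, Matrix.one_mulVec,
      smul_eq_mul, ← Matrix.mulVec_mulVec, ← Matrix.mulVec_mulVec, Matrix.star_mulVec,
      Matrix.dotProduct_mulVec (star a) θᴴ]
  have e2 : (star a ⬝ᵥ a : ℂ) = ((∑ j, ‖a j‖ ^ 2 : ℝ) : ℂ) := by
    rw [dotProduct]
    push_cast
    refine Finset.sum_congr rfl fun j _ => ?_
    rw [Pi.star_apply, RCLike.star_def, mul_comm, Complex.mul_conj, Complex.normSq_eq_norm_sq]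
    push_cast
    rfl
  have e3 : (H730.V.S w⁻¹ (θ *ᵥ a) (θ *ᵥ a)).im = 0 := by
    rw [← Complex.conj_eq_iff_im, H730.V.S_conj hw.inv.isHermitian]
  have e4 : (H730.V.S w⁻¹ (θ *ᵥ a) (θ *ᵥ a)).re ≤ c * ∑ j, ‖a j‖ ^ 2 := by
    have h1 := H730.V.inv_le_one hw hlow hl (θ *ᵥ a)
    have h2 : (H730.V.S 1 (θ *ᵥ a) (θ *ᵥ a)).re ≤ (n * (q * B ^ 2)) * ∑ j, ‖a j‖ ^ 2 := by
      rw [H730.V.S_one]
      have := theta_bound (B := B) θᴴ (fun i j => by
        rw [Matrix.conjTranspose_apply, norm_star]; exact hB j i) a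
      rwa [Matrix.conjTranspose_conjTranspose] at this
    have h3 : (H730.V.S w⁻¹ (θ *ᵥ a) (θ *ᵥ a)).re =
        lam⁻¹ * (lam * (H730.V.S w⁻¹ (θ *ᵥ a) (θ *ᵥ a)).re) := by
      field_simp
    rw [h3, hc, mul_assoc]
    exact mul_le_mul_of_nonneg_left (h1.trans h2) (inv_pos.2 hl).le
  rw [e1, e2, ← H730.V.S_eq, Complex.le_def]
  constructor
  · rw [Complex.sub_re, ← Complex.ofReal_mul, Complex.ofReal_re, Complex.zero_re]
    linarith
  · rw [Complex.sub_im, ← Complex.ofReal_mul, Complex.ofReal_im, Complex.zero_im, e3, sub_zero]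

end mat

section glob
variable {n q : ℕ} {Γ : Type} [Group Γ] {C : Coc n Γ} {P : PU C} {K : KM C} {θ : HF C q}
  {f h : Γ → C.I → Cm n → ℝ}

theorem S_low (K : KM C) {a : C.I} {z : Cm n} (hz : z ∈ C.Ω a) (v : Fin n → ℂ) :
    K.lam * (H730.V.S 1 v v).re ≤ (H730.V.S (K.w a z) v v).re := by
  rw [H730.V.form_star (K.w a z), ← H730.V.sum_norm_conj]
  exact K.low a z hz fun j => conj (v j)

/-- bound of the Gram matrices -/
def Lam (K : KM C) (θ : HF C q) : ℝ := K.lam⁻¹ * (n * (q * |θ.B| ^ 2))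

theorem gram_K (K : KM C) (θ : HF C q) {a : C.I} {z : Cm n} (hz : z ∈ C.Ω a) :
    ((Lam K θ : ℂ) • (1 : Matrix (Fin q) (Fin q) ℂ) -
      (θ.th a z)ᴴ * (K.w a z)⁻¹ * θ.th a z).PosSemidef :=
  gram_psd (w_pos K hz) K.lam_pos (abs_nonneg _) (S_low K hz) _ fun i j =>
    (θ.bd a z hz i j).trans (le_abs_self _)

/-- lower bound of the determinant -/
theorem det_low {T : Matrix (Fin q) (Fin q) ℂ} (hT : T.PosSemidef) {δ : ℝ} (hδ : 0 ≤ δ) :
    δ ^ q ≤ ((δ : ℂ) • (1 : Matrix (Fin q) (Fin q) ℂ) + T).det.re := by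
  have h1 : ((δ : ℂ) • (1 : Matrix (Fin q) (Fin q) ℂ) + T).det =
      ∏ i, ((δ + hT.isHermitian.eigenvalues i : ℝ) : ℂ) := by
    have h2 := hT.isHermitian.spectral_theorem
    set U := hT.isHermitian.eigenvectorUnitary with hU
    have h3 : ((δ : ℂ) • (1 : Matrix (Fin q) (Fin q) ℂ) + T) =
        (U : Matrix (Fin q) (Fin q) ℂ) * (Matrix.diagonal fun i =>
          ((δ + hT.isHermitian.eigenvalues i : ℝ) : ℂ)) * (star U : Matrix (Fin q) (Fin q) ℂ) := by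
      have h4 : (Matrix.diagonal fun i => ((δ + hT.isHermitian.eigenvalues i : ℝ) : ℂ)) =
          (δ : ℂ) • (1 : Matrix (Fin q) (Fin q) ℂ) +
            Matrix.diagonal (RCLike.ofReal ∘ hT.isHermitian.eigenvalues) := by
        ext i j
        by_cases hij : i = j
        · subst hij
          simp
        · simp [hij]
      rw [h4, Matrix.mul_add, Matrix.add_mul, Matrix.mul_smul, Matrix.smul_mul, Matrix.mul_one]
      congr 1
      · have : (U : Matrix (Fin q) (Fin q) ℂ) * (star U : Matrix (Fin q) (Fin q) ℂ) = 1 :=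
          Unitary.mul_star_self_of_mem U.2
        rw [this]
    rw [h3, Matrix.det_mul_right_comm, Matrix.det_mul]
    have : ((U : Matrix (Fin q) (Fin q) ℂ) * (star U : Matrix (Fin q) (Fin q) ℂ)).det = 1 := by
      have : (U : Matrix (Fin q) (Fin q) ℂ) * (star U : Matrix (Fin q) (Fin q) ℂ) = 1 :=
          Unitary.mul_star_self_of_mem U.2
      rw [this, Matrix.det_one]
    rw [this, one_mul, Matrix.det_diagonal]
  rw [h1, ← Complex.ofReal_prod, Complex.ofReal_re]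
  calc δ ^ q = ∏ _i : Fin q, δ := by simp
    _ ≤ _ := Finset.prod_le_prod (fun _ _ => hδ) fun i _ => by
        have := hT.eigenvalues_nonneg i
        linarith

theorem DD_low {w : Matrix (Fin n) (Fin n) ℂ} (hw : w.PosDef) (θ : Matrix (Fin n) (Fin q) ℂ) {δ : ℝ}
    (hδ : 0 ≤ δ) : δ ^ q ≤ DD w θ δ :=
  det_low (hw.inv.posSemidef.conjTranspose_mul_mul_same θ) hδ

end glob


section mat2
variable {n q : ℕ}

theorem det_prod {T : Matrix (Fin q) (Fin q) ℂ} (hT : T.IsHermitian) (δ : ℝ) :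
    ((δ : ℂ) • (1 : Matrix (Fin q) (Fin q) ℂ) + T).det.re = ∏ i, (δ + hT.eigenvalues i) := by
  have h1 : ((δ : ℂ) • (1 : Matrix (Fin q) (Fin q) ℂ) + T).det =
      ∏ i, ((δ + hT.eigenvalues i : ℝ) : ℂ) := by
    have h2 := hT.spectral_theorem
    set U := hT.eigenvectorUnitary with hU
    have h3 : ((δ : ℂ) • (1 : Matrix (Fin q) (Fin q) ℂ) + T) =
        (U : Matrix (Fin q) (Fin q) ℂ) * (Matrix.diagonal fun i =>
          ((δ + hT.eigenvalues i : ℝ) : ℂ)) * (star U : Matrix (Fin q) (Fin q) ℂ) := by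
      have h4 : (Matrix.diagonal fun i => ((δ + hT.eigenvalues i : ℝ) : ℂ)) =
          (δ : ℂ) • (1 : Matrix (Fin q) (Fin q) ℂ) +
            Matrix.diagonal (RCLike.ofReal ∘ hT.eigenvalues) := by
        ext i j
        by_cases hij : i = j
        · subst hij
          simp
        · simp [hij]
      rw [h4, Matrix.mul_add, Matrix.add_mul, Matrix.mul_smul, Matrix.smul_mul, Matrix.mul_one]
      congr 1
      · have : (U : Matrix (Fin q) (Fin q) ℂ) * (star U : Matrix (Fin q) (Fin q) ℂ) = 1 :=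
          Unitary.mul_star_self_of_mem U.2
        rw [this]
    rw [h3, Matrix.det_mul_right_comm, Matrix.det_mul]
    have : ((U : Matrix (Fin q) (Fin q) ℂ) * (star U : Matrix (Fin q) (Fin q) ℂ)).det = 1 := by
      have : (U : Matrix (Fin q) (Fin q) ℂ) * (star U : Matrix (Fin q) (Fin q) ℂ) = 1 :=
          Unitary.mul_star_self_of_mem U.2
      rw [this, Matrix.det_one]
    rw [this, one_mul, Matrix.det_diagonal]
  rw [h1, ← Complex.ofReal_prod, Complex.ofReal_re]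

theorem eig_le {T : Matrix (Fin q) (Fin q) ℂ} (hT : T.IsHermitian) {L : ℝ}
    (hL : ((L : ℂ) • (1 : Matrix (Fin q) (Fin q) ℂ) - T).PosSemidef) (i : Fin q) :
    hT.eigenvalues i ≤ L := by
  have h1 := hL.dotProduct_mulVec_nonneg (⇑(hT.eigenvectorBasis i))
  rw [Matrix.sub_mulVec, Matrix.smul_mulVec, Matrix.one_mulVec, dotProduct_sub, dotProduct_smul]
    at h1
  have h2 := hT.eigenvalues_eq i
  have h3 : (star (⇑(hT.eigenvectorBasis i)) ⬝ᵥ (⇑(hT.eigenvectorBasis i)) : ℂ) = 1 := by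
    have h4 := hT.eigenvectorBasis.orthonormal.1 i
    have h5 : inner ℂ (hT.eigenvectorBasis i) (hT.eigenvectorBasis i) = (1 : ℂ) := by
      rw [inner_self_eq_norm_sq_to_K, h4]; simp
    rw [← h5, dotProduct_comm]
    rfl
  rw [h3] at h1
  have h6 := (Complex.le_def.1 h1).1
  rw [Complex.zero_re, Complex.sub_re, smul_eq_mul, mul_one, Complex.ofReal_re] at h6
  have h7 : hT.eigenvalues i =
      (star (⇑(hT.eigenvectorBasis i)) ⬝ᵥ T *ᵥ (⇑(hT.eigenvectorBasis i))).re := h2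
  rw [h7]
  linarith

theorem det_up {T : Matrix (Fin q) (Fin q) ℂ} (hT : T.PosSemidef) {δ L : ℝ} (hδ : 0 ≤ δ)
    (hL : ((L : ℂ) • (1 : Matrix (Fin q) (Fin q) ℂ) - T).PosSemidef) :
    ((δ : ℂ) • (1 : Matrix (Fin q) (Fin q) ℂ) + T).det.re ≤ (δ + L) ^ q := by
  rw [det_prod hT.isHermitian]
  calc _ ≤ ∏ _i : Fin q, (δ + L) := Finset.prod_le_prod
        (fun i _ => add_nonneg hδ (hT.eigenvalues_nonneg i)) fun i _ => by
          have := eig_le hT.isHermitian hL i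
          linarith
    _ = (δ + L) ^ q := by simp

theorem DD_up {w : Matrix (Fin n) (Fin n) ℂ} (hw : w.PosDef) (θ : Matrix (Fin n) (Fin q) ℂ)
    {δ L : ℝ} (hδ : 0 ≤ δ)
    (hL : ((L : ℂ) • (1 : Matrix (Fin q) (Fin q) ℂ) - θᴴ * w⁻¹ * θ).PosSemidef) :
    DD w θ δ ≤ (δ + L) ^ q :=
  det_up (hw.inv.posSemidef.conjTranspose_mul_mul_same θ) hδ hL

theorem TT_herm {w : Matrix (Fin n) (Fin n) ℂ} (hw : w.PosDef) (θ : Matrix (Fin n) (Fin q) ℂ)
    (δ : ℝ) : (TT w θ δ).IsHermitian := by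
  refine Matrix.IsHermitian.add ?_ (hw.inv.posSemidef.conjTranspose_mul_mul_same θ).isHermitian
  rw [Matrix.IsHermitian, Matrix.conjTranspose_smul, Matrix.conjTranspose_one, RCLike.star_def,
    Complex.conj_ofReal]

theorem DD_ofReal {w : Matrix (Fin n) (Fin n) ℂ} (hw : w.PosDef) (θ : Matrix (Fin n) (Fin q) ℂ)
    (δ : ℝ) : (TT w θ δ).det = (DD w θ δ : ℂ) := by
  have h1 : conj (TT w θ δ).det = (TT w θ δ).det := by
    have := Matrix.det_conjTranspose (TT w θ δ)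
    rw [(TT_herm hw θ δ).eq] at this
    exact this.symm
  rw [DD, Complex.conj_eq_iff_re.1 h1]

theorem WW_pos {w : Matrix (Fin n) (Fin n) ℂ} (hw : w.PosDef) (θ : Matrix (Fin n) (Fin q) ℂ)
    {δ : ℝ} (hδ : 0 < δ) : (WW w θ δ).PosDef := by
  refine hw.add_posSemidef ?_
  have h1 : (θ * θᴴ).PosSemidef := Matrix.posSemidef_self_mul_conjTranspose θ
  refine h1.smul ?_
  have : (0 : ℝ) ≤ δ⁻¹ := (inv_pos.2 hδ).le
  exact_mod_cast this

theorem WW_det {w : Matrix (Fin n) (Fin n) ℂ} (hw : w.PosDef) (θ : Matrix (Fin n) (Fin q) ℂ)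
    {δ : ℝ} (hδ : 0 < δ) : (WW w θ δ).det.re = (δ ^ q)⁻¹ * DD w θ δ * w.det.re := by
  have hu : IsUnit w.det := isUnit_iff_ne_zero.2 hw.det_pos.ne'
  have h0 : (δ : ℂ) ≠ 0 := by exact_mod_cast hδ.ne'
  have h1 : WW w θ δ = w * (1 + (((δ⁻¹ : ℝ) : ℂ) • (w⁻¹ * θ)) * θᴴ) := by
    rw [WW, Matrix.mul_add, Matrix.mul_one, Matrix.smul_mul, Matrix.mul_smul, Matrix.mul_assoc,
      ← Matrix.mul_assoc w, Matrix.mul_nonsing_inv _ hu, Matrix.one_mul]
  have h2 : (1 : Matrix (Fin q) (Fin q) ℂ) + θᴴ * (((δ⁻¹ : ℝ) : ℂ) • (w⁻¹ * θ)) =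
      ((δ⁻¹ : ℝ) : ℂ) • TT w θ δ := by
    rw [TT, smul_add, smul_smul, Matrix.mul_smul, Matrix.mul_assoc]
    congr 1
    rw [Complex.ofReal_inv, inv_mul_cancel₀ h0, one_smul]
  rw [h1, Matrix.det_mul, Matrix.det_one_add_mul_comm, h2, Matrix.det_smul, Fintype.card_fin,
    DD_ofReal hw]
  have h3 : w.det = ((w.det.re : ℝ) : ℂ) := by
    have h4 : conj w.det = w.det := by
      have := Matrix.det_conjTranspose w
      rw [hw.isHermitian.eq] at this
      exact this.symm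
    rw [Complex.conj_eq_iff_re.1 h4]
  rw [h3, ← Complex.ofReal_pow, ← Complex.ofReal_mul, ← Complex.ofReal_mul, Complex.ofReal_re,
    Complex.ofReal_re, inv_pow]
  ring

end mat2

section glob2
variable {n q : ℕ} {Γ : Type} [Group Γ] {C : Coc n Γ} {P : PU C} {K : KM C} {θ : HF C q}
  {f h : Γ → C.I → Cm n → ℝ}

theorem th_holo (θ : HF C q) {a : C.I} {z : Cm n} (hz : z ∈ C.Ω a) (i : Fin n) (j : Fin q) :
    DifferentiableAt ℂ (fun y => θ.th a y i j) z :=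
  (θ.holo a i j).differentiableAt ((H639.V.isOpen_Ω C a).mem_nhds hz)

/-- the metric `w + δ⁻¹ θ θᴴ` -/
def KW (K : KM C) (θ : HF C q) (δ : ℝ) (hδ : 0 < δ) : KM C where
  w a z := WW (K.w a z) (θ.th a z) δ
  ku a := by
    refine ⟨H639.V.isOpen_Ω C a, fun z hz i j => ?_, fun z hz => WW_pos (w_pos K hz) _ hδ,
      fun z hz i j k => ?_⟩
    · have : MC ∞ (fun y => WW (K.w a y) (θ.th a y) δ) z :=
        MC.add (w_mc K hz) (mc_smul contDiffAt_const ((th_mc θ hz).mul (th_mc θ hz).conjTranspose))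
      exact this i j
    · have hθd : ∀ i l, DifferentiableAt ℝ (fun y => θ.th a y i l) z := fun i l =>
        (th_holo θ hz i l).restrictScalars ℝ
      have hcd : ∀ i l, DifferentiableAt ℝ (fun y => cj (θ.th a y i l)) z := fun i l =>
        C2.differentiableAt_conj (hθd i l)
      have hwd : ∀ i j, DifferentiableAt ℝ (fun y => K.w a y i j) z := fun i j =>
        ((w_mc K hz) i j).differentiableAt (by norm_num)
      have key : ∀ i j k, dz k (fun y => WW (K.w a y) (θ.th a y) δ i j) z =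
          dz k (fun y => K.w a y i j) z + ((δ⁻¹ : ℝ) : ℂ) * ∑ l, cj (θ.th a z j l) *
            dz k (fun y => θ.th a y i l) z := by
        intro i j k
        have e1 : (fun y => WW (K.w a y) (θ.th a y) δ i j) =
            fun y => K.w a y i j + ((δ⁻¹ : ℝ) : ℂ) * ∑ l, θ.th a y i l * cj (θ.th a y j l) := by
          funext y
          rw [WW, Matrix.add_apply, Matrix.smul_apply, Matrix.mul_apply, smul_eq_mul]
          rfl
        have e2 : DifferentiableAt ℝ (fun y => ∑ l, θ.th a y i l * cj (θ.th a y j l)) z :=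
          DifferentiableAt.fun_sum fun l _ => (hθd i l).fun_mul (hcd j l)
        rw [e1, C2.dz_add k (hwd i j) (e2.const_mul _), C2.dz_const_mul k _ e2,
          C2.dz_sum k _ fun l _ => (hθd i l).fun_mul (hcd j l)]
        congr 2
        refine Finset.sum_congr rfl fun l _ => ?_
        rw [C2.dz_mul k (hθd i l) (hcd j l), C2.dz_conj k (hθd j l),
          Vale.Agent.P272.K.dzb_of_holo (th_holo θ hz j l), map_zero, mul_zero, add_zero,
          mul_comm]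
      rw [key, key, (K.ku a).closed z hz i j k]
      congr 2
      refine Finset.sum_congr rfl fun l _ => ?_
      rw [θ.closed a z hz i l k]
  change a b z hz := by
    rw [WW, WW, θ.change a b z hz, Matrix.conjTranspose_mul, ct_map, K.change a b z hz]
    simp only [Matrix.mul_add, Matrix.add_mul, Matrix.mul_smul, Matrix.smul_mul, Matrix.mul_assoc]
  lam := K.lam
  lam_pos := K.lam_pos
  Lam := max (K.Lam + δ⁻¹ * (q * (n * |θ.B| ^ 2)))
    ((δ ^ q)⁻¹ * (δ + Lam K θ) ^ q * K.Lam)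
  low a z hz v := by
    rw [ww_form]
    have h1 : 0 ≤ δ⁻¹ * ∑ i, ‖((θ.th a z)ᴴ *ᵥ (fun j => conj (v j))) i‖ ^ 2 := by positivity
    have h2 := K.low a z hz v
    linarith
  up a z hz v := by
    rw [ww_form]
    have h1 := theta_bound (B := |θ.B|) (θ.th a z)
      (fun i j => (θ.bd a z hz i j).trans (le_abs_self _)) (fun j => conj (v j))
    have h2 := K.up a z hz v
    have h3 : ∑ j, ‖conj (v j)‖ ^ 2 = ∑ j, ‖v j‖ ^ 2 := by simp
    rw [h3] at h1
    have h4 := mul_le_mul_of_nonneg_left h1 (inv_pos.2 hδ).le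
    have h5 : 0 ≤ ∑ j, ‖v j‖ ^ 2 := by positivity
    calc _ ≤ (K.Lam + δ⁻¹ * (q * (n * |θ.B| ^ 2))) * ∑ j, ‖v j‖ ^ 2 := by
          rw [add_mul, mul_assoc δ⁻¹]
          exact add_le_add h2 h4
      _ ≤ _ := mul_le_mul_of_nonneg_right (le_max_left _ _) h5
  vol_up a z hz := by
    refine le_trans ?_ (le_max_right _ _)
    have h1 : vol (fun z => WW (K.w a z) (θ.th a z) δ) z = (δ ^ q)⁻¹ * DD (K.w a z) (θ.th a z) δ *
        vol (K.w a) z := WW_det (w_pos K hz) _ hδ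
    rw [h1]
    have h2 := DD_up (w_pos K hz) (θ.th a z) hδ.le (gram_K K θ hz)
    have h3 := K.vol_up a z hz
    have h4 := K.vol_low a z hz
    have h5 := K.lam_pos
    have h6 : 0 ≤ DD (K.w a z) (θ.th a z) δ :=
      (pow_pos hδ q).le.trans (DD_low (w_pos K hz) (θ.th a z) hδ.le)
    have h7 : 0 < (δ ^ q)⁻¹ := inv_pos.2 (pow_pos hδ q)
    exact mul_le_mul (mul_le_mul_of_nonneg_left h2 h7.le) h3 (by linarith)
      (mul_nonneg h7.le (h6.trans h2))
  vol_low a z hz := by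
    have h1 : vol (fun z => WW (K.w a z) (θ.th a z) δ) z = (δ ^ q)⁻¹ * DD (K.w a z) (θ.th a z) δ *
        vol (K.w a) z := WW_det (w_pos K hz) _ hδ
    rw [h1]
    have h2 := DD_low (w_pos K hz) (θ.th a z) hδ.le
    have h4 := K.vol_low a z hz
    have h5 := K.lam_pos
    have h7 : 0 < δ ^ q := pow_pos hδ q
    have h8 : 1 ≤ (δ ^ q)⁻¹ * DD (K.w a z) (θ.th a z) δ := by
      rw [inv_mul_eq_div, one_le_div h7]
      exact h2
    calc K.lam ≤ vol (K.w a) z := h4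
      _ = 1 * vol (K.w a) z := (one_mul _).symm
      _ ≤ _ := mul_le_mul_of_nonneg_right h8 (by linarith)

end glob2

end Vale.Agent.P284.H402.A
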